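import Vale.Agent.P092.RC.Defs

/-!
P092, TEAM C: transport of the output of the analysis along a unitary of Hilbert spaces.
-/

set_option linter.all false

open scoped InnerProductSpace ENNReal
open Filter Topology ContinuousLinearMap MeasureTheory TopologicalSpace

namespace Vale.Agent.P092.RC

open Vale.Agent.P092.SR (CO)
open Vale.Agent.P092.H820 (Cpv)

section cj

variable {K K' : Type} [NormedAddCommGroup K] [InnerProductSpace ℂ K] [CompleteSpace K]
  [NormedAddCommGroup K'] [InnerProductSpace ℂ K'] [CompleteSpace K']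

/-- conjugation by a unitary -/
noncomputable abbrev cj (u : K ≃ₗᵢ[ℂ] K') : (K →L[ℂ] K) ≃⋆ₐ[ℂ] (K' →L[ℂ] K') :=
  u.conjStarAlgEquiv

variable (u : K ≃ₗᵢ[ℂ] K')

theorem cj_ap (T : K →L[ℂ] K) (ξ : K) : cj u T (u ξ) = u (T ξ) := by
  rw [LinearIsometryEquiv.conjStarAlgEquiv_apply_apply, u.symm_apply_apply]

theorem star_cj (T : K →L[ℂ] K) : star (cj u T) = cj u (star T) := ((cj u).map_star' T).symm

theorem adjoint_cj (T : K →L[ℂ] K) : adjoint (cj u T) = cj u (adjoint T) := star_cj u T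

theorem norm_cj (T : K →L[ℂ] K) : ‖cj u T‖ = ‖T‖ := by
  refine le_antisymm ?_ ?_
  · refine ContinuousLinearMap.opNorm_le_bound _ (norm_nonneg _) fun ξ => ?_
    rw [LinearIsometryEquiv.conjStarAlgEquiv_apply_apply, u.norm_map]
    refine (T.le_opNorm _).trans_eq ?_
    rw [u.symm.norm_map]
  · refine ContinuousLinearMap.opNorm_le_bound _ (norm_nonneg _) fun ξ => ?_
    have h1 := (cj u T).le_opNorm (u ξ)
    rwa [cj_ap, u.norm_map, u.norm_map] at h1

theorem cj_inj {S T : K →L[ℂ] K} (h : cj u S = cj u T) : S = T := (cj u).injective h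

theorem cj_nonneg {T : K →L[ℂ] K} (h : 0 ≤ T) : 0 ≤ cj u T := by
  have h1 := map_nonneg (cj u) h
  exact h1

theorem cj_le {S T : K →L[ℂ] K} (h : S ≤ T) : cj u S ≤ cj u T := by
  have h1 := cj_nonneg u (sub_nonneg.2 h)
  rw [map_sub] at h1
  exact sub_nonneg.1 h1

theorem cj_comm {S T : K →L[ℂ] K} : cj u S * cj u T = cj u T * cj u S ↔ S * T = T * S := by
  rw [← map_mul, ← map_mul]
  exact ⟨fun h => cj_inj u h, fun h => by rw [h]⟩

theorem cm_cj {W : Set (K →L[ℂ] K)} {T : K →L[ℂ] K} : Cm (cj u '' W) (cj u T) ↔ Cm W T := by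
  constructor
  · intro h w hw
    exact (cj_comm u).1 (h _ ⟨w, hw, rfl⟩)
  · rintro h _ ⟨w, hw, rfl⟩
    exact (cj_comm u).2 (h w hw)

end cj

section tw

variable {G Γ Y G₀ K K' : Type} [Group G] [TopologicalSpace G] [Group Γ] [TopologicalSpace Y]
  [MulAction G Y] [ContinuousConstSMul G Y] [Group G₀] [TopologicalSpace G₀]
  [NormedAddCommGroup K] [InnerProductSpace ℂ K] [CompleteSpace K]
  [NormedAddCommGroup K'] [InnerProductSpace ℂ K'] [CompleteSpace K']

/-- `u` intertwines two pictures. -/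
structure Tw (u : K ≃ₗᵢ[ℂ] K') (π : G →* (K →L[ℂ] K)) (lam : Γ →* (K →L[ℂ] K))
    (W : Set (K →L[ℂ] K)) (Ω : K) (π' : G →* (K' →L[ℂ] K')) (lam' : Γ →* (K' →L[ℂ] K'))
    (W' : Set (K' →L[ℂ] K')) (Ω' : K') : Prop where
  pi : ∀ g, π' g = cj u (π g)
  lam : ∀ γ, lam' γ = cj u (lam γ)
  W : W' = cj u '' W
  Om : Ω' = u Ω

variable {u : K ≃ₗᵢ[ℂ] K'} {π : G →* (K →L[ℂ] K)} {lam : Γ →* (K →L[ℂ] K)}
    {W : Set (K →L[ℂ] K)} {Ω : K} {π' : G →* (K' →L[ℂ] K')} {lam' : Γ →* (K' →L[ℂ] K')}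
    {W' : Set (K' →L[ℂ] K')} {Ω' : K'} {q : Γ →* G} {y₀ : Y} {c : G → Y → G₀}
    {E : Clopens Y → (K →L[ℂ] K)} {U : Subgroup G₀} {a : G₀ → (K →L[ℂ] K)}

theorem Tw.trn (t : Tw u π lam W Ω π' lam' W' Ω') (T : K →L[ℂ] K) :
    TRN lam' Ω' (cj u T) = TRN lam Ω T := by
  rw [TRN, TRN]
  refine tsum_congr fun γ => ?_
  rw [t.lam, t.Om, cj_ap, cj_ap]
  congr 1
  exact u.toLinearIsometry.enorm_map _

theorem Tw.lim (t : Tw u π lam W Ω π' lam' W' Ω') (h : Lim π lam W q y₀ E) :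
    Lim π' lam' W' q y₀ fun C => cj u (E C) where
  cpv :=
    { sa := fun C => by rw [star_cj, h.cpv.sa]
      inf := fun C D => by rw [h.cpv.inf, map_mul]
      compl := fun C => by rw [h.cpv.compl, map_sub, map_one] }
  cm C := by
    rw [t.W]
    exact (cm_cj u).2 (h.cm C)
  cov γ C := by rw [t.lam, t.lam, ← map_mul, ← map_mul, h.cov]
  par p hp C := by rw [t.pi, ← map_mul, ← map_mul, h.par p hp]

theorem Tw.res (t : Tw u π lam W Ω π' lam' W' Ω') (h : Res π lam W q c y₀ E U a) :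
    Res π' lam' W' q c y₀ (fun C => cj u (E C)) U fun g => cj u (a g) where
  bdd := by
    obtain ⟨B, hB⟩ := h.bdd
    exact ⟨B, fun g => by rw [norm_cj]; exact hB g⟩
  rinv g v hv := by rw [h.rinv g v hv]
  cm g := by
    rw [t.W]
    exact (cm_cj u).2 (h.cm g)
  rad r h1 h2 g := by rw [t.pi, ← map_mul, ← map_mul, h.rad r h1 h2]
  cE g C := by rw [← map_mul, ← map_mul, h.cE]
  eqv γ g g' C hC := by
    rw [t.lam, t.lam, ← map_mul, ← map_mul, ← map_mul, ← map_mul, h.eqv γ g g' C hC]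

theorem Tw.hat (t : Tw u π lam W Ω π' lam' W' Ω') (h : Hat π lam W Ω q c y₀ E U a) :
    Hat π' lam' W' Ω' q c y₀ (fun C => cj u (E C)) U fun g => cj u (a g) where
  cos := h.cos
  res := t.res h.res
  pos g := cj_nonneg u (h.pos g)
  ne he := h.ne (funext fun g => by
    have h1 := congrFun he g
    change cj u (a g) = 0 at h1
    rw [← map_zero (cj u)] at h1
    exact cj_inj u h1)
  sum F hF := by
    have h1 := cj_le u (h.sum F hF)
    rwa [map_sum, map_one] at h1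
  smooth := by
    obtain ⟨V, hV, h1⟩ := h.smooth
    exact ⟨V, hV, fun p hp hy g => by rw [t.pi, ← map_mul, ← map_mul, h1 p hp hy]⟩
  tb g hg C C' hC g₁ g₂ := by
    have h1 := h.tb g hg C C' hC g₁ g₂
    rw [← t.trn] at h1
    simpa only [map_mul, ← t.pi] using h1

end tw

end Vale.Agent.P092.RC
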