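import Vale.Agent.P092.RC.St
import Vale.Agent.P092.H58.FinR
import Vale.Agent.P092.H200.HeightL
import Vale.Agent.P092.SR.Main

/-!
P092, Team C (helper701): the top of the assembly.  The core statement (a unit vector of the model of
the frame which is moved by `VV α g` to a multiple of a translate) implies the final statements.
-/

set_option linter.all false

open scoped InnerProductSpace
open ContinuousLinearMap Matrix

namespace Vale.Agent.P092.RC

open Vale.Agent.P092.H160 Vale.Agent.P092.SR Vale.Agent.P092.H515.St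

/-- The monomial vector of the model of the frame `α` (text: end of R/IV). -/
def MonoV {Γ Λ : Type} [Group Γ] [Group Λ] (α : Γ →* (Ell2 Λ →L[ℂ] Ell2 Λ)) : Prop :=
  ∃ w : Ell2 (Λ × Λ), ‖w‖ = 1 ∧
    ∀ g, ∃ (a b : Γ) (z : ℂ), ‖z‖ = 1 ∧ VV α g w = z • RR₁ α a (RR₂ α b w)

/-- The core statement for the lattices of `SL_n(k)`. -/
def CoreAt (n : ℕ) : Prop :=
  ∀ (k : Type) [NontriviallyNormedField k] [ProperSpace k] [IsUltrametricDist k] [CharZero k]
    (Γ : Subgroup (SpecialLinearGroup (Fin n) k)), IsLattice Γ →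
    (∀ g : Γ, g ≠ 1 → Set.Infinite {y : Γ | ∃ h, y = h * g * h⁻¹}) →
    ∀ {Λ : Type} [Group Λ] [Countable Λ],
      (∀ g : Λ, g ≠ 1 → Set.Infinite {y : Λ | ∃ h, y = h * g * h⁻¹}) →
      ∀ α : Γ →* (Ell2 Λ →L[ℂ] Ell2 Λ), Frame α → MonoV α

theorem canonical_of_mono {Γ Λ : Type} [Group Γ] [Group Λ]
    (hicc : ∀ g : Γ, g ≠ 1 → Set.Infinite {y : Γ | ∃ h, y = h * g * h⁻¹})
    (θ : H160.St.StarIso Γ Λ) (hm : ∀ α : Γ →* (Ell2 Λ →L[ℂ] Ell2 Λ), Frame α → MonoV α) :
    H160.St.Canonical θ := by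
  have hα : Frame (alphaOf (toAlg θ)) := frame_of_iso hicc (toAlg θ)
  obtain ⟨w, hw, hwg⟩ := hm _ hα
  obtain ⟨c, hc, hp4⟩ := H200.HeightL.heightStmt _ hα w hw hwg
  exact canonical_iff θ (canonical_of_form _ (canon_of_p4 hα hicc hc hp4))

theorem super_of_core {n : ℕ} (h : CoreAt n) (k : Type) [NontriviallyNormedField k]
    [ProperSpace k] [IsUltrametricDist k] [CharZero k]
    (Γ : Subgroup (SpecialLinearGroup (Fin n) k)) (hlat : IsLattice Γ)
    (hicc : ∀ g : Γ, g ≠ 1 → Set.Infinite {y : Γ | ∃ h, y = h * g * h⁻¹}) : SR.St.Super Γ :=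
  fun Λ _ _ hΛ θ => canonical_of_mono hicc θ fun α hα => h k Γ hlat hicc hΛ α hα

theorem final13_of (h : CoreAt 3) : St.Final13 := by
  intro Γ _ hΓ
  obtain ⟨hicc, k, _, i, hk, hu, hc, hi, hl⟩ := hΓ
  exact H58.super_equiv (MonoidHom.ofInjective hi) (super_of_core h k i.range hl
    (H133.icc_equiv (MonoidHom.ofInjective hi) hicc))

theorem final1_of (h : ∀ n, 3 ≤ n → CoreAt n) : St.Final1 := by
  intro Γ _ hΓ
  obtain ⟨hicc, k, _, n, i, hk, hu, hc, hn, hi, hl⟩ := hΓ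
  exact H58.super_equiv (MonoidHom.ofInjective hi) (super_of_core (h n hn) k i.range hl
    (H133.icc_equiv (MonoidHom.ofInjective hi) hicc))

end Vale.Agent.P092.RC
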