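import Vale.Agent.P092.SR.Defs
import Vale.Agent.P092.H820.Cpv

/-!
P092, TEAM C (one simple factor, non-archimedean, characteristic zero; `Γ` a lattice in `SL_n(k)`,
`Λ` an arbitrary ICC group): interface file.

One Hilbert space `K` (in the application `L²(G/Γ; ℓ²(Λ × Λ))`) with commuting unitary
representations `π` of `G` (the representation induced from `Δ`), `lam` of `Γ` (the target, one
leg) and a set `W` of operators (the functions on `G/Γ` and the target of the other leg).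
-/

set_option linter.all false

open scoped InnerProductSpace ENNReal
open Filter Topology ContinuousLinearMap MeasureTheory TopologicalSpace

namespace Vale.Agent.P092.RC

open Vale.Agent.P092.SR (CO)
open Vale.Agent.P092.H820 (Cpv)

/-! ### Geometry: points, the Levi quotient and the cocycle -/

section geo

variable {G Y G₀ : Type} [Group G] [TopologicalSpace G] [TopologicalSpace Y] [MulAction G Y]
  [Group G₀] [TopologicalSpace G₀]

/-- `G` acts on the compact space `Y` of points; `c : G → Y → G₀` is the continuous cocycle given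
by a continuous section of `G → Y` and the projection of the stabiliser `P` of `y₀` to
`G₀ = P / R`. -/
structure Geo (c : G → Y → G₀) (y₀ : Y) : Prop where
  tg : IsTopologicalGroup G
  tg₀ : IsTopologicalGroup G₀
  cact : Continuous fun p : G × Y => p.1 • p.2
  cpt : CompactSpace Y
  t2 : T2Space Y
  td : TotallyDisconnectedSpace Y
  t2₀ : T2Space G₀
  sc₀ : SecondCountableTopology G₀
  mul : ∀ g h y, c (g * h) y = c g (h • y) * c h y
  cont : Continuous fun p : G × Y => c p.1 p.2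
  surj : ∀ y : Y, ∃ g : G, g • y₀ = y
  lev : ∀ h : G₀, ∃ g : G, g • y₀ = y₀ ∧ c g y₀ = h

/-- the action of `G` on `Z = Y × G₀ = G / R` -/
def zact (c : G → Y → G₀) (g : G) (z : Y × G₀) : Y × G₀ := (g • z.1, c g z.1 * z.2)

/-- the right action of `G₀` on `Z` -/
def zr (z : Y × G₀) (h : G₀) : Y × G₀ := (z.1, z.2 * h)

/-- the translate of a clopen set -/
def sm [ContinuousConstSMul G Y] (g : G) (C : Clopens Y) : Clopens Y :=
  ⟨(fun y => g⁻¹ • y) ⁻¹' (C : Set Y), C.isClopen.preimage (continuous_const_smul g⁻¹)⟩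

end geo

/-- `S ⊆ G` has the Moore property: `S`-fixed vectors are `G`-fixed. -/
def Moore {G : Type} [Group G] [TopologicalSpace G] (S : Set G) : Prop :=
  ∀ (E : Type) [NormedAddCommGroup E] [InnerProductSpace ℂ E] [CompleteSpace E]
    (u : G →* (E →L[ℂ] E)), (∀ g ξ, ‖u g ξ‖ = ‖ξ‖) → (∀ ξ, Continuous fun g => u g ξ) →
    ∀ ξ, (∀ g ∈ S, u g ξ = ξ) → ∀ g, u g ξ = ξ

/-! ### The picture -/

section pic

variable {G Γ K : Type} [Group G] [TopologicalSpace G] [Group Γ] [NormedAddCommGroup K]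
  [InnerProductSpace ℂ K] [CompleteSpace K]

/-- `T` commutes with all elements of `W`. -/
def Cm (W : Set (K →L[ℂ] K)) (T : K →L[ℂ] K) : Prop := ∀ w ∈ W, T * w = w * T

/-- `Tr (T* T)` -/
noncomputable def TRN (lam : Γ →* (K →L[ℂ] K)) (Ω : K) (T : K →L[ℂ] K) : ℝ≥0∞ :=
  ∑' γ, ‖T (lam γ Ω)‖ₑ ^ 2

/-- The picture of one leg. -/
structure Pic (π : G →* (K →L[ℂ] K)) (lam : Γ →* (K →L[ℂ] K)) (W : Set (K →L[ℂ] K)) (Ω : K) :
    Prop where
  adjP : ∀ g, adjoint (π g) = π g⁻¹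
  contP : ∀ ξ, Continuous fun g => π g ξ
  adjL : ∀ γ, adjoint (lam γ) = lam γ⁻¹
  comm : ∀ g γ, π g * lam γ = lam γ * π g
  Wadj : ∀ w ∈ W, adjoint w ∈ W
  WP : ∀ w ∈ W, ∀ g, π g * w * π g⁻¹ ∈ W
  WL : ∀ w ∈ W, ∀ γ, w * lam γ = lam γ * w
  nΩ : ‖Ω‖ = 1
  /-- ergodicity -/
  erg : ∀ S : Set G, Moore S → ∀ T, Cm W T → (∀ γ, T * lam γ = lam γ * T) →
    (∀ g ∈ S, T * π g = π g * T) → ∃ z : ℂ, T = z • (1 : K →L[ℂ] K)
  /-- trace -/
  tr_adj : ∀ T, Cm W T → TRN lam Ω (adjoint T) = TRN lam Ω T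
  tr_conj : ∀ T, Cm W T → ∀ g, TRN lam Ω (π g * T * π g⁻¹) = TRN lam Ω T
  tr_zero : ∀ T, Cm W T → TRN lam Ω T = 0 → T = 0
  /-- Hilbert-Schmidt fields which are invariant vanish -/
  hs_erg : ∀ S : Set G, Moore S → ∀ T, Cm W T → TRN lam Ω T < ∞ →
    (∀ g ∈ S, T * π g = π g * T) → T = 0
  /-- the vector state is `lam`-invariant on the operators commuting with `π` and `W` -/
  inv : ∀ T, Cm W T → (∀ g, T * π g = π g * T) → ∀ γ,
    ⟪Ω, (lam γ * T * lam γ⁻¹) Ω⟫_ℂ = ⟪Ω, T Ω⟫_ℂ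

/-- The picture of both legs: `X` are the functions on `G/Γ`. -/
structure Pic2 (π : G →* (K →L[ℂ] K)) (lam₁ lam₂ : Γ →* (K →L[ℂ] K)) (X : Set (K →L[ℂ] K))
    (Ω : K) : Prop where
  leg₁ : Pic π lam₁ (X ∪ Set.range lam₂) Ω
  leg₂ : Pic π lam₂ (X ∪ Set.range lam₁) Ω
  Xcomm : ∀ x ∈ X, ∀ y ∈ X, x * y = y * x
  Xadj : ∀ x ∈ X, adjoint x ∈ X
  XP : ∀ x ∈ X, ∀ g, π g * x * π g⁻¹ ∈ X

end pic

/-! ### The output of the analysis -/

section out

variable {G Γ Y G₀ K : Type} [Group G] [TopologicalSpace G] [Group Γ] [TopologicalSpace Y]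
  [MulAction G Y] [ContinuousConstSMul G Y] [Group G₀] [TopologicalSpace G₀]
  [NormedAddCommGroup K] [InnerProductSpace ℂ K] [CompleteSpace K]

/-- `E` = the boundary map at the source point `y₀`: [C-LIM]. `q : Γ → G` is the target
embedding. -/
structure Lim (π : G →* (K →L[ℂ] K)) (lam : Γ →* (K →L[ℂ] K)) (W : Set (K →L[ℂ] K)) (q : Γ →* G)
    (y₀ : Y) (E : Clopens Y → (K →L[ℂ] K)) : Prop where
  cpv : Cpv E
  cm : ∀ C, Cm W (E C)
  cov : ∀ γ C, lam γ * E C * lam γ⁻¹ = E (sm (q γ) C)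
  par : ∀ p : G, p • y₀ = y₀ → ∀ C, π p * E C = E C * π p

/-- `W'` is an extension of `W` at the point `y₀` (in use: `W' = W ∪ range E₂`, `E₂` the boundary
map of the other leg). -/
structure Ext (π : G →* (K →L[ℂ] K)) (lam : Γ →* (K →L[ℂ] K)) (W W' : Set (K →L[ℂ] K)) (y₀ : Y)
    (E : Clopens Y → (K →L[ℂ] K)) : Prop where
  sub : W ⊆ W'
  adj : ∀ w ∈ W', adjoint w ∈ W'
  par : ∀ w ∈ W', ∀ p : G, p • y₀ = y₀ → π p * w * π p⁻¹ ∈ W'
  lam : ∀ w ∈ W', ∀ γ, w * lam γ = lam γ * w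
  cE : ∀ C, Cm W' (E C)

/-- Element of the residue algebra at the level `U` (trivialised form): a function
`a : G₀ → B(K)`. In use `W` is the extended set `W'` of `Ext`. -/
structure Res (π : G →* (K →L[ℂ] K)) (lam : Γ →* (K →L[ℂ] K)) (W : Set (K →L[ℂ] K)) (q : Γ →* G)
    (c : G → Y → G₀) (y₀ : Y) (E : Clopens Y → (K →L[ℂ] K)) (U : Subgroup G₀)
    (a : G₀ → (K →L[ℂ] K)) : Prop where
  bdd : ∃ B : ℝ, ∀ h, ‖a h‖ ≤ B
  rinv : ∀ h, ∀ u ∈ U, a (h * u) = a h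
  cm : ∀ h, Cm W (a h)
  rad : ∀ r : G, r • y₀ = y₀ → c r y₀ = 1 → ∀ h, π r * a h = a h * π r
  cE : ∀ h C, a h * E C = E C * a h
  /-- germ equivariance -/
  eqv : ∀ γ h h' (C : Clopens Y), (∀ y ∈ C, (c (q γ) y * h)⁻¹ * h' ∈ U) →
    lam γ * (a h * E C) * lam γ⁻¹ = a h' * E (sm (q γ) C)

/-- [C-HAT] + [C-TR]: the positive element `a = Ê` of the residue algebra. -/
structure Hat (π : G →* (K →L[ℂ] K)) (lam : Γ →* (K →L[ℂ] K)) (W : Set (K →L[ℂ] K)) (Ω : K)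
    (q : Γ →* G) (c : G → Y → G₀) (y₀ : Y) (E : Clopens Y → (K →L[ℂ] K)) (U : Subgroup G₀)
    (a : G₀ → (K →L[ℂ] K)) : Prop where
  cos : SR.COS U
  res : Res π lam W q c y₀ E U a
  pos : ∀ h, 0 ≤ a h
  ne : a ≠ 0
  sum : ∀ F : Finset G₀, (∀ h ∈ F, ∀ h' ∈ F, h ≠ h' → h⁻¹ * h' ∉ U) → ∑ h ∈ F, a h ≤ 1
  /-- smooth on the source side -/
  smooth : ∃ V : Subgroup G, IsOpen (V : Set G) ∧ ∀ p ∈ V, p • y₀ = y₀ →
    ∀ h, π p * a h = a h * π p
  /-- trace bound -/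
  tb : ∀ g : G, g • y₀ ≠ y₀ → ∀ C C' : Clopens Y, Disjoint C C' → ∀ h h' : G₀,
    TRN lam Ω (π g * (a h' * E C') * π g⁻¹ * (a h * E C)) < ∞

/-- The output of the residue theorem: projections `Q C` over the compact open subsets of
`Z = Y × G₀`; `δ` is a homomorphism on the stabiliser of `y₀`. -/
structure ZFam (π : G →* (K →L[ℂ] K)) (lam : Γ →* (K →L[ℂ] K)) (W : Set (K →L[ℂ] K)) (Ω : K)
    (q : Γ →* G) (c : G → Y → G₀) (y₀ : Y) (E : Clopens Y → (K →L[ℂ] K)) (δ : G → G₀)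
    (Q : Set (Y × G₀) → (K →L[ℂ] K)) : Prop where
  adj : ∀ C, CO C → adjoint (Q C) = Q C
  mul : ∀ C D, CO C → CO D → Q C * Q D = Q (C ∩ D)
  add : ∀ C D, CO C → CO D → Disjoint C D → Q (C ∪ D) = Q C + Q D
  nondeg : ∀ ζ, (∀ C, CO C → Q C ζ = 0) → ζ = 0
  cm : ∀ C, CO C → Cm W (Q C)
  cov : ∀ γ C, CO C → lam γ * Q C * lam γ⁻¹ = Q (zact c (q γ) '' C)
  par : ∀ p : G, p • y₀ = y₀ → ∀ C, CO C → π p * Q C * π p⁻¹ = Q ((fun z => zr z (δ p)⁻¹) '' C)
  base : ∀ (B : Clopens Y) C, CO C → Q C * E B = Q (C ∩ Prod.fst ⁻¹' (B : Set Y))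
  δmul : ∀ p p' : G, p • y₀ = y₀ → p' • y₀ = y₀ → δ (p * p') = δ p * δ p'
  δker : ∀ p : G, p • y₀ = y₀ → (δ p = 1 ↔ c p y₀ = 1)
  δcont : Continuous fun p : {p : G // p • y₀ = y₀} => δ p
  tb : ∀ g : G, g • y₀ ≠ y₀ → ∀ C C' : Set (Y × G₀), CO C → CO C' →
    Disjoint (Prod.fst '' C) (Prod.fst '' C') → TRN lam Ω (π g * Q C' * π g⁻¹ * Q C) < ∞
  /-- every smooth element of the residue algebra is a function -/
  max : ∀ (U : Subgroup G₀), SR.COS U → ∀ a, Res π lam W q c y₀ E U a →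
    (∃ V : Subgroup G, IsOpen (V : Set G) ∧ ∀ p ∈ V, p • y₀ = y₀ → ∀ h, π p * a h = a h * π p) →
    ∃ φ : G₀ → ℂ, ∀ (B : Clopens Y) (h t : G₀),
      a h * Q ((B : Set Y) ×ˢ {x | ∃ u ∈ U, x = h * u * t}) =
        φ t • Q ((B : Set Y) ×ˢ {x | ∃ u ∈ U, x = h * u * t})

end out

/-! ### Lines -/

section lines

variable {G Y G₀ D L : Type} [Group G] [TopologicalSpace G] [TopologicalSpace Y] [MulAction G Y]
  [Group G₀] [TopologicalSpace G₀] [TopologicalSpace D] [MulAction G₀ D] [TopologicalSpace L]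
  [MulAction G L]

/-- Geometry of lines: `D` = directions at a point (`ℙ(k^(n-1))`), `L` = lines, `ln y m` = the line
through `y` with direction `m` (in the frame given by the section at `y`). -/
structure LGeo (c : G → Y → G₀) (ln : Y → D → L) (inc : Set (Y × L)) : Prop where
  cptD : CompactSpace D
  t2D : T2Space D
  tdD : TotallyDisconnectedSpace D
  cptL : CompactSpace L
  t2L : T2Space L
  tdL : TotallyDisconnectedSpace L
  cactD : Continuous fun p : G₀ × D => p.1 • p.2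
  cactL : Continuous fun p : G × L => p.1 • p.2
  cont : Continuous fun p : Y × D => ln p.1 p.2
  closed : IsClosed inc
  mem : ∀ y m, (y, ln y m) ∈ inc
  ex : ∀ y l, (y, l) ∈ inc → ∃ m, ln y m = l
  inj : ∀ y m m', ln y m = ln y m' → m = m'
  eqv : ∀ g y m, g • ln y m = ln (g • y) (c g y • m)
  smul : ∀ (g : G) y l, (y, l) ∈ inc → (g • y, g • l) ∈ inc
  join : ∀ y y' : Y, ∃ l, (y, l) ∈ inc ∧ (y', l) ∈ inc
  uniq : ∀ (y y' : Y) l l', y ≠ y' → (y, l) ∈ inc → (y', l) ∈ inc → (y, l') ∈ inc →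
    (y', l') ∈ inc → l = l'

end lines

/-- The output of the first half of the end, one leg: the family `F` of the source line `l₀`; it is
a function of the family `Q` at every point of `l₀`. -/
structure LFam {G Γ Y G₀ L K : Type} [Group G] [TopologicalSpace G] [Group Γ] [TopologicalSpace Y]
    [MulAction G Y] [TopologicalSpace G₀] [TopologicalSpace L]
    [MulAction G L] [ContinuousConstSMul G L] [NormedAddCommGroup K] [InnerProductSpace ℂ K]
    [CompleteSpace K] (π : G →* (K →L[ℂ] K)) (lam : Γ →* (K →L[ℂ] K)) (W : Set (K →L[ℂ] K))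
    (q : Γ →* G) (y₀ : Y) (inc : Set (Y × L)) (l₀ : L) (Q : Set (Y × G₀) → (K →L[ℂ] K))
    (F : Clopens L → (K →L[ℂ] K)) : Prop where
  cpv : Cpv F
  cm : ∀ C, Cm W (F C)
  cov : ∀ γ C, lam γ * F C * lam γ⁻¹ = F (sm (q γ) C)
  par : ∀ p : G, p • l₀ = l₀ → ∀ C, π p * F C = F C * π p
  gen : ∀ g : G, (g • y₀, l₀) ∈ inc → ∀ T : K →L[ℂ] K,
    (∀ C, CO C → T * (π g * Q C * π g⁻¹) = π g * Q C * π g⁻¹ * T) → ∀ B, T * F B = F B * T

end Vale.Agent.P092.RC
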