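import Vale.Agent.P092.RC.Defs
import Vale.Agent.P092.H820.Pn

/-!
P092, TEAM C: the concrete geometry. `G = SL_(m+1)(k)`, `Y = ℙ(k^(m+1))`, `G₀ = PGL_m(k)`, the
normalised section and its cocycle.
-/

set_option linter.all false

open scoped LinearAlgebra.Projectivization
open Matrix TopologicalSpace

namespace Vale.Agent.P092.RC

section con

variable (k : Type) [NontriviallyNormedField k] (m : ℕ)

/-- `SL_(m+1)(k)` -/
abbrev GG : Type := SpecialLinearGroup (Fin (m + 1)) k

/-- `PGL_m(k)` -/
abbrev PG : Type := GL (Fin m) k ⧸ Subgroup.center (GL (Fin m) k)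

/-- points -/
abbrev YY : Type := ℙ k (Fin (m + 1) → k)

variable {k m}

open Classical in
/-- the first index of a coordinate of maximal norm -/
noncomputable def ix (v : Fin (m + 1) → k) : Fin (m + 1) :=
  if h : (Finset.univ.filter fun i => ∀ j, ‖v j‖ ≤ ‖v i‖).Nonempty then
    (Finset.univ.filter fun i => ∀ j, ‖v j‖ ≤ ‖v i‖).min' h else 0

/-- the normalised representative -/
noncomputable def nv (y : YY k m) : Fin (m + 1) → k := fun j => y.rep j / y.rep (ix y.rep)

/-- the section `Y → GL_(m+1)(O)`: first column the normalised representative, the other columns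
the standard basis vectors different from `e_i`, `i = ix y`. -/
noncomputable def sct (y : YY k m) : Matrix (Fin (m + 1)) (Fin (m + 1)) k :=
  Matrix.of fun a b => Fin.cases (motive := fun _ => k) (nv y a)
    (fun j => if a = (ix y.rep).succAbove j then 1 else 0) b

/-- the lower right block of `s(g y)⁻¹ g s(y)` -/
noncomputable def blk (g : GG k m) (y : YY k m) : Matrix (Fin m) (Fin m) k :=
  ((sct (g • y))⁻¹ * g.1 * sct y).submatrix Fin.succ Fin.succ

open Classical in
/-- the cocycle -/
noncomputable def cc (g : GG k m) (y : YY k m) : PG k m :=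
  if h : IsUnit (blk g y) then QuotientGroup.mk h.unit else 1

/-- the base point -/
noncomputable def y0 : YY k m :=
  Projectivization.mk k (Pi.single 0 1) (by
    intro h
    have := congrFun h 0
    simp at this)

/-- the contragredient automorphism `g ↦ (g⁻¹)ᵀ` -/
def ct : GG k m →* GG k m where
  toFun g := ⟨(g⁻¹).1ᵀ, by rw [det_transpose]; exact (g⁻¹).2⟩
  map_one' := by
    apply Subtype.ext
    show ((1 : GG k m)⁻¹).1ᵀ = 1
    rw [inv_one]
    exact transpose_one
  map_mul' g h := by
    apply Subtype.ext
    have e : ((g * h)⁻¹ : GG k m) = h⁻¹ * g⁻¹ := _root_.mul_inv_rev g h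
    show ((g * h)⁻¹ : GG k m).1ᵀ = (g⁻¹).1ᵀ * (h⁻¹).1ᵀ
    rw [e]
    exact transpose_mul (h⁻¹).1 (g⁻¹).1

/-- an embedding as a lattice -/
structure Emb {Γ : Type} [Group Γ] (q : Γ →* GG k m) : Prop where
  inj : Function.Injective q
  lat : H515.St.IsLattice q.range

end con

/-! ### Lines of the plane -/

section plane

variable (k : Type) [NontriviallyNormedField k]

/-- the dual plane, with the contragredient action -/
def LL : Type := ℙ k (Fin 3 → k)

instance : TopologicalSpace (LL k) := inferInstanceAs (TopologicalSpace (ℙ k (Fin 3 → k)))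

noncomputable instance : MulAction (GG k 2) (LL k) :=
  MulAction.compHom (ℙ k (Fin 3 → k)) (ct : GG k 2 →* GG k 2)

variable {k}

/-- incidence -/
def inc : Set (YY k 2 × LL k) := {p | Projectivization.orthogonal p.1 (p.2 : ℙ k (Fin 3 → k))}

/-- the line through `e₀` and `e₁` -/
noncomputable def l0 : LL k :=
  Projectivization.mk k (Pi.single 2 1 : Fin 3 → k) (by
    intro h
    have := congrFun h 2
    simp at this)

end plane

end Vale.Agent.P092.RC
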