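import Vale.Agent.P092.RC.Mid
import Vale.Agent.P092.RC.Top
import Vale.Agent.P092.H34.Ind
import Vale.Agent.P092.H85.CD
import Vale.Agent.P092.H515.LatSl
import Vale.Agent.P092.H839.Tri
import Vale.Agent.P092.H303.Form

/-!
P092, TEAM C: the concrete picture over `G/Γ` and the assembly of `CoreAt 3`, modulo the literal
statements of the blocks.
-/

set_option linter.all false

open scoped InnerProductSpace ENNReal
open Filter Topology ContinuousLinearMap MeasureTheory TopologicalSpace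

namespace Vale.Agent.P092.RC

open Vale.Agent.P092.SR Vale.Agent.P092.H160

section con

variable {k : Type} [NontriviallyNormedField k] {m : ℕ} [LocallyCompactSpace (GG k m)]
  [SecondCountableTopology (GG k m)] [MeasurableSpace (GG k m)] [BorelSpace (GG k m)]
  {Γ : Subgroup (GG k m)} [DiscreteTopology Γ] [Countable Γ] [MeasurableSpace (GG k m ⧸ Γ)]
  [BorelSpace (GG k m ⧸ Γ)] {ν : Measure (GG k m ⧸ Γ)} [IsProbabilityMeasure ν]
  (hν : ∀ g : GG k m, ν.map (fun x => g • x) = ν)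
  {Λ : Type} [Group Λ] {α : Γ →* (Ell2 Λ →L[ℂ] Ell2 Λ)} (hα : Frame α)

/-- the Hilbert space of the picture -/
abbrev KC (Λ : Type) : Type := Lp (Ell2 (Λ × Λ)) 2 (H85.cdat ν hν).μ

/-- the representation of `G` induced from `VV α` -/
noncomputable abbrev piC : GG k m →* (KC hν Λ →L[ℂ] KC hν Λ) :=
  H34.Ind.pi (H85.cdat ν hν) (V := VV α) (H839.adj_VV hα)

/-- a representation of `Γ` by constant operators -/
noncomputable abbrev lamC (R : Γ →* (Ell2 (Λ × Λ) →L[ℂ] Ell2 (Λ × Λ))) :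
    Γ →* (KC hν Λ →L[ℂ] KC hν Λ) :=
  H34.Ind.lam (H85.cdat ν hν) R

/-- the functions on `G/Γ` -/
def XC (Λ : Type) : Set (KC hν Λ →L[ℂ] KC hν Λ) :=
  {T | ∃ S, MeasurableSet S ∧ T = H790.ind (H85.cdat ν hν).μ (Ell2 (Λ × Λ)) S}

/-- the cyclic vector -/
noncomputable def OmC (Λ : Type) [Group Λ] : KC hν Λ :=
  Lp.const 2 (H85.cdat ν hν).μ (dl ((1, 1) : Λ × Λ) : Ell2 (Λ × Λ))

end con

/-- [C-PIC] -/
def PicStmt (m : ℕ) : Prop :=
  ∀ (k : Type) [NontriviallyNormedField k] [ProperSpace k] [IsUltrametricDist k] [CharZero k]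
    [LocallyCompactSpace (GG k m)] [SecondCountableTopology (GG k m)] [MeasurableSpace (GG k m)]
    [BorelSpace (GG k m)] {Γ : Subgroup (GG k m)} [DiscreteTopology Γ] [Countable Γ]
    [MeasurableSpace (GG k m ⧸ Γ)] [BorelSpace (GG k m ⧸ Γ)] {ν : Measure (GG k m ⧸ Γ)}
    [IsProbabilityMeasure ν] (hν : ∀ g : GG k m, ν.map (fun x => g • x) = ν)
    (_ : H515.St.IsLattice Γ) (_ : ∀ g : Γ, g ≠ 1 → Set.Infinite {y : Γ | ∃ h, y = h * g * h⁻¹})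
    {Λ : Type} [Group Λ] [Countable Λ]
    (_ : ∀ g : Λ, g ≠ 1 → Set.Infinite {y : Λ | ∃ h, y = h * g * h⁻¹})
    {α : Γ →* (Ell2 Λ →L[ℂ] Ell2 Λ)} (hα : Frame α),
    Pic2 (piC hν hα) (lamC hν (RR₁ α)) (lamC hν (RR₂ α)) (XC hν Λ) (OmC hν Λ)

/-- [C-ANA] -/
def AnaStmt (m : ℕ) : Prop :=
  ∀ (k : Type) [NontriviallyNormedField k] [ProperSpace k] [IsUltrametricDist k] [CharZero k]
    [LocallyCompactSpace (GG k m)] [SecondCountableTopology (GG k m)] [MeasurableSpace (GG k m)]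
    [BorelSpace (GG k m)] {Γ : Subgroup (GG k m)} [DiscreteTopology Γ] [Countable Γ]
    [MeasurableSpace (GG k m ⧸ Γ)] [BorelSpace (GG k m ⧸ Γ)] {ν : Measure (GG k m ⧸ Γ)}
    [IsProbabilityMeasure ν] (hν : ∀ g : GG k m, ν.map (fun x => g • x) = ν)
    (_ : H515.St.IsLattice Γ) (_ : ∀ g : Γ, g ≠ 1 → Set.Infinite {y : Γ | ∃ h, y = h * g * h⁻¹})
    {Λ : Type} [Group Λ] [Countable Λ]
    (_ : ∀ g : Λ, g ≠ 1 → Set.Infinite {y : Λ | ∃ h, y = h * g * h⁻¹})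
    {α : Γ →* (Ell2 Λ →L[ℂ] Ell2 Λ)} (hα : Frame α),
    ∃ (q₁ q₂ : Γ →* GG k m) (E₁ E₂ : Clopens (YY k m) → (KC hν Λ →L[ℂ] KC hν Λ)),
      Ana m (piC hν hα) (lamC hν (RR₁ α)) (lamC hν (RR₂ α)) (XC hν Λ) (OmC hν Λ) q₁ q₂ E₁ E₂

/-- [C-END] -/
def EndStmt : Prop :=
  ∀ (k : Type) [NontriviallyNormedField k] [ProperSpace k] [IsUltrametricDist k] [CharZero k]
    [ContinuousConstSMul (GG k 2) (LL k)]
    [LocallyCompactSpace (GG k 2)] [SecondCountableTopology (GG k 2)] [MeasurableSpace (GG k 2)]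
    [BorelSpace (GG k 2)] {Γ : Subgroup (GG k 2)} [DiscreteTopology Γ] [Countable Γ]
    [MeasurableSpace (GG k 2 ⧸ Γ)] [BorelSpace (GG k 2 ⧸ Γ)] {ν : Measure (GG k 2 ⧸ Γ)}
    [IsProbabilityMeasure ν] (hν : ∀ g : GG k 2, ν.map (fun x => g • x) = ν)
    (_ : H515.St.IsLattice Γ) (_ : ∀ g : Γ, g ≠ 1 → Set.Infinite {y : Γ | ∃ h, y = h * g * h⁻¹})
    {Λ : Type} [Group Λ] [Countable Λ]
    (_ : ∀ g : Λ, g ≠ 1 → Set.Infinite {y : Λ | ∃ h, y = h * g * h⁻¹})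
    {α : Γ →* (Ell2 Λ →L[ℂ] Ell2 Λ)} (hα : Frame α) (q₁ q₂ : Γ →* GG k 2)
    (F₁ F₂ : Clopens (LL k) → (KC hν Λ →L[ℂ] KC hν Λ)),
    Pic2 (piC hν hα) (lamC hν (RR₁ α)) (lamC hν (RR₂ α)) (XC hν Λ) (OmC hν Λ) →
    Out (piC hν hα) (lamC hν (RR₁ α)) (lamC hν (RR₂ α)) (XC hν Λ) q₁ q₂ F₁ F₂ → MonoV α

/-- the action of `G` on the dual plane is continuous in the second variable -/
def InstStmt : Prop :=
  ∀ (k : Type) [NontriviallyNormedField k], ContinuousConstSMul (GG k 2) (LL k)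

theorem core3 (hI : InstStmt) (hG : GeoStmt) (hP : PlaneStmt) (hR : ResStmt 2) (hL : LineStmt)
    (hX : CrossStmt 2) (hp : PicStmt 2) (ha : AnaStmt 2) (hE : EndStmt) : CoreAt 3 := by
  intro k _ _ _ _ Γ hΓ hicc Λ _ _ hΛ α hα
  haveI := hI k
  haveI h1 : LocallyCompactSpace (GG k 2) := H303.locallyCompact_SL
  haveI h2 : SecondCountableTopology (GG k 2) := H303.secondCountable_SL
  letI : MeasurableSpace (GG k 2) := borel _
  haveI : BorelSpace (GG k 2) := ⟨rfl⟩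
  haveI hd : DiscreteTopology Γ := hΓ.disc
  haveI hc : Countable Γ := H790.countable_of_discrete (E := GG k 2) Γ
  letI : MeasurableSpace (GG k 2 ⧸ Γ) := borel _
  haveI : BorelSpace (GG k 2 ⧸ Γ) := ⟨rfl⟩
  obtain ⟨ν, hP', hν⟩ := H515.IsLattice.exists_prob (Λ := Γ) ⟨hΓ.disc, hΓ.covol⟩
  have h3 := hp k (Γ := Γ) hν hΓ hicc hΛ hα
  obtain ⟨q₁, q₂, E₁, E₂, h4⟩ := ha k (Γ := Γ) hν hΓ hicc hΛ hα
  obtain ⟨F₁, F₂, h5⟩ := out_of_ana hG hP hR hL hX h3 h4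
  exact hE k (Γ := Γ) hν hΓ hicc hΛ hα q₁ q₂ F₁ F₂ h3 h5

end Vale.Agent.P092.RC
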