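import Vale.Agent.P092.RC.Half
import Vale.Agent.P092.H142.Tr
import Vale.Agent.P092.H931.Br
import Vale.Agent.P092.H761.CovReg
import Vale.Agent.P092.H761.Coef
import Vale.Agent.P092.H538.Fst

/-!
P092, TEAM C: the row model of the picture: the unitary from `L²(G/Γ; ℓ²((Γ × Γ) × Unit))` to
`KC`, with the row representation `VR` of the source.
-/

set_option linter.all false

open scoped InnerProductSpace ENNReal
open Filter Topology ContinuousLinearMap MeasureTheory TopologicalSpace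

namespace Vale.Agent.P092.RC

open Vale.Agent.P092.SR Vale.Agent.P092.H160
open Vale.Agent.P092.H432 (lx ep mp ARep)

section fibre

variable {Γ Λ : Type} [Group Γ] [Group Λ] {α : Γ →* (Ell2 Λ →L[ℂ] Ell2 Λ)} (hα : Frame α)

/-- the row representation -/
noncomputable def VR (v : Γ) : Ell2 ((Γ × Γ) × Unit) →L[ℂ] Ell2 ((Γ × Γ) × Unit) :=
  H761.cj (H931.V (H931.dual_frame hα) v)

theorem arep_VR : ARep 1 (VR hα) :=
  H761.arep_cj (V := fun g => H931.V (H931.dual_frame hα) g) (map_one _)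
    (fun v w => map_mul _ v w) (fun v => H931.V_adj (H931.dual_frame hα) v)
    (fun v s => H931.V_rho (H931.dual_frame hα) v s)
    (fun v hv => H931.inner_V (H931.dual_frame hα) v hv)

theorem VR_one : VR hα 1 = 1 := by
  rw [VR, map_one]
  exact H761.cj_one

/-- the unitary of the fibre -/
noncomputable def uR : Ell2 ((Γ × Γ) × Unit) ≃ₗᵢ[ℂ] Ell2 (Λ × Λ) :=
  LinearIsometryEquiv.trans
    { toFun := rei (H761.sg (Γ × Γ)).symm
      invFun := rei (H761.sg (Γ × Γ))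
      map_add' := map_add _
      map_smul' := map_smul _
      left_inv := H761.rei_sg
      right_inv := H761.rei_sg_symm
      norm_map' := norm_rei _ } (H931.UU hα)

theorem uR_ap (ξ : Ell2 ((Γ × Γ) × Unit)) :
    uR hα ξ = H931.WW hα (rei (H761.sg (Γ × Γ)).symm ξ) := rfl

theorem uR_V (v : Γ) (ξ : Ell2 ((Γ × Γ) × Unit)) : uR hα (VR hα v ξ) = VV α v (uR hα ξ) := by
  rw [uR_ap, uR_ap, VR, H761.cj_apply, H761.rei_sg_symm, H931.WW_V]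

theorem symm_lx (s : Γ × Γ) (ξ : Ell2 ((Γ × Γ) × Unit)) :
    rei (H761.sg (Γ × Γ)).symm (lx s ξ) = rho s (rei (H761.sg (Γ × Γ)).symm ξ) := by
  have h2 := H761.lx_sg s (rei (H761.sg (Γ × Γ)).symm ξ)
  rw [H761.rei_sg] at h2
  rw [h2, H761.rei_sg_symm]

theorem uR_lx₁ (γ : Γ) (ξ : Ell2 ((Γ × Γ) × Unit)) :
    uR hα (lx (γ, (1 : Γ)) ξ) = RR₁ α γ (uR hα ξ) := by
  rw [uR_ap, uR_ap, symm_lx, H931.WW_rho, map_one]
  rfl

theorem uR_lx₂ (γ : Γ) (ξ : Ell2 ((Γ × Γ) × Unit)) :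
    uR hα (lx ((1 : Γ), γ) ξ) = RR₂ α γ (uR hα ξ) := by
  rw [uR_ap, uR_ap, symm_lx, H931.WW_rho, map_one]
  rfl

theorem uR_ep (i : Unit) : uR hα (ep i) = dl (1, 1) := by
  rw [uR_ap, H761.sg_symm_ep, H931.WW_one]
  rfl

/-- multiplication by a function of the first coordinate, in the space of the model -/
noncomputable def AF (F : Γ → ℝ) : Ell2 Λ →L[ℂ] Ell2 Λ :=
  H931.W hα ∘L H553.mo (fun x => F x⁻¹) ∘L adjoint (H931.W hα)

theorem uR_mp {F : Γ → ℝ} {C : ℝ} (hF : ∀ g, |F g| ≤ C) (ξ : Ell2 ((Γ × Γ) × Unit)) :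
    uR hα (mp Unit (fun x : Γ × Γ => F x.1) ξ) = tens (AF hα F) 1 (uR hα ξ) := by
  obtain ⟨η, rfl⟩ : ∃ η, ξ = rei (H761.sg (Γ × Γ)) η :=
    ⟨rei (H761.sg (Γ × Γ)).symm ξ, (H761.rei_sg ξ).symm⟩
  rw [H761.mp_sg (F := fun x : Γ × Γ => F x.1) (fun g => hF g.1), uR_ap, uR_ap,
    H761.rei_sg_symm, H761.rei_sg_symm]
  have h1 : (H553.mo (fun x : Γ × Γ => F x⁻¹.1) : Ell2 (Γ × Γ) →L[ℂ] Ell2 (Γ × Γ)) =
      tens (H553.mo (fun x => F x⁻¹)) 1 := by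
    apply op_ext
    rintro ⟨x, y⟩
    rw [tens_dl]
    apply ext_inner_dl
    rintro ⟨a, b⟩
    rw [H553.mo_apply (F := fun x : Γ × Γ => F x⁻¹.1) (C := C) fun x => hF _, tv_apply,
      H553.mo_apply (F := fun x : Γ => F x⁻¹) (C := C) fun x => hF _, dl_prod, tv_apply]
    change (F a⁻¹ : ℂ) * (_ * _) = (F a⁻¹ : ℂ) * _ * (dl y : Ell2 Γ) b
    rw [mul_assoc]
  rw [h1]
  have h2 : H931.WW hα ∘L tens (H553.mo (fun x => F x⁻¹)) 1 =
      tens (AF hα F) 1 ∘L H931.WW hα := by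
    apply op_ext
    rintro ⟨x, y⟩
    have h3 : AF hα F (H931.W hα (dl x)) = H931.W hα (H553.mo (fun x => F x⁻¹) (dl x)) := by
      change H931.W hα (H553.mo (fun x => F x⁻¹) (adjoint (H931.W hα) (H931.W hα (dl x)))) = _
      rw [H931.adjW_W_apply]
    rw [comp_apply, comp_apply, tens_dl, dl_prod, H931.WW_tv, H931.WW_tv, tens_tv, h3]
    rfl
  exact congrArg (fun T : Ell2 (Γ × Γ) →L[ℂ] Ell2 (Λ × Λ) => T η) h2

end fibre

section con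

variable {k : Type} [NontriviallyNormedField k] {m : ℕ} [LocallyCompactSpace (GG k m)]
  [SecondCountableTopology (GG k m)] [MeasurableSpace (GG k m)] [BorelSpace (GG k m)]
  {Γ : Subgroup (GG k m)} [DiscreteTopology Γ] [Countable Γ] [MeasurableSpace (GG k m ⧸ Γ)]
  [BorelSpace (GG k m ⧸ Γ)] {ν : Measure (GG k m ⧸ Γ)} [IsProbabilityMeasure ν]
  (hν : ∀ g : GG k m, ν.map (fun x => g • x) = ν)
  {Λ : Type} [Group Λ] {α : Γ →* (Ell2 Λ →L[ℂ] Ell2 Λ)} (hα : Frame α)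

/-- the Hilbert space of the row model -/
abbrev KR : Type := Lp (Ell2 ((Γ × Γ) × Unit)) 2 (H85.cdat ν hν).μ

/-- the unitary from the row model to the picture -/
noncomputable def JC : KR hν ≃ₗᵢ[ℂ] KC hν Λ := H142.JL (H85.cdat ν hν).μ (uR hα)

theorem JC_ae (ξ : KR hν) : ⇑(JC hν hα ξ) =ᵐ[(H85.cdat ν hν).μ] fun x => uR hα (ξ x) :=
  H142.JL_ae _ _ _

theorem cj_JC_eq {S : KR hν →L[ℂ] KR hν} {T : KC hν Λ →L[ℂ] KC hν Λ}
    (h : ∀ ξ, JC hν hα (S ξ) = T (JC hν hα ξ)) : cj (JC hν hα) S = T := by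
  ext1 ξ
  obtain ⟨η, rfl⟩ := (JC hν hα).surjective ξ
  rw [cj_ap, h]

theorem cj_JC_cst {A : Ell2 ((Γ × Γ) × Unit) →L[ℂ] Ell2 ((Γ × Γ) × Unit)}
    {B : Ell2 (Λ × Λ) →L[ℂ] Ell2 (Λ × Λ)} (h : ∀ ξ, uR hα (A ξ) = B (uR hα ξ)) :
    cj (JC hν hα) (A.compLpL 2 (H85.cdat ν hν).μ) = cst hν B := by
  refine cj_JC_eq hν hα fun ξ => Lp.ext ?_
  filter_upwards [JC_ae hν hα (A.compLpL 2 (H85.cdat ν hν).μ ξ), JC_ae hν hα ξ,
    A.coeFn_compLpL (p := 2) (μ := (H85.cdat ν hν).μ) ξ,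
    B.coeFn_compLpL (p := 2) (μ := (H85.cdat ν hν).μ) (JC hν hα ξ)] with x h1 h2 h3 h4
  rw [h1, h3, h4, h2, h]

theorem cj_JC_pi (g : GG k m) :
    cj (JC hν hα) (H790.Ri (H85.cdat ν hν) (VR hα) g) = piC hν hα g := by
  have hb : ∀ v, ‖VR hα v‖ ≤ 1 := fun v => (arep_VR hα).opNorm_le v
  have hb' : ∀ v, ‖VV α v‖ ≤ 1 := fun v => H34.Ind.norm_le_of_adj (H839.adj_VV hα) v
  refine cj_JC_eq hν hα fun ξ => Lp.ext ?_
  filter_upwards [JC_ae hν hα (H790.Ri (H85.cdat ν hν) (VR hα) g ξ),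
    H790.ri_ae (H85.cdat ν hν) hb g ξ, H790.ri_ae (H85.cdat ν hν) hb' g (JC hν hα ξ),
    H790.ae_comp ((H85.cdat ν hν).mp g⁻¹) (JC_ae hν hα ξ)] with x h1 h2 h3 h4
  rw [h1, h2, uR_V, ← h4]
  exact h3.symm

theorem cj_JC_lam₁ (γ : Γ) :
    cj (JC hν hα) (H790.lxt (H85.cdat ν hν).μ (γ, (1 : Γ))) = lamC hν (RR₁ α) γ :=
  cj_JC_cst hν hα (uR_lx₁ hα γ)

theorem cj_JC_lam₂ (γ : Γ) :
    cj (JC hν hα) (H790.lxt (H85.cdat ν hν).μ ((1 : Γ), γ)) = lamC hν (RR₂ α) γ :=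
  cj_JC_cst hν hα (uR_lx₂ hα γ)

theorem cj_JC_ind {S : Set (H85.cdat ν hν).X} (hS : MeasurableSet S) :
    cj (JC hν hα) (H790.ind (H85.cdat ν hν).μ (Ell2 ((Γ × Γ) × Unit)) S) =
      H790.ind (H85.cdat ν hν).μ (Ell2 (Λ × Λ)) S := by
  classical
  refine cj_JC_eq hν hα fun ξ => Lp.ext ?_
  filter_upwards [JC_ae hν hα (H790.ind (H85.cdat ν hν).μ (Ell2 ((Γ × Γ) × Unit)) S ξ),
    JC_ae hν hα ξ, H790.ind_ae hS ξ, H790.ind_ae hS (JC hν hα ξ)] with x h1 h2 h3 h4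
  rw [h1, h3, h4]
  by_cases hx : x ∈ S
  · rw [Set.indicator_of_mem hx, Set.indicator_of_mem hx, h2]
  · rw [Set.indicator_of_notMem hx, Set.indicator_of_notMem hx, map_zero]

theorem cj_JC_mp {F : Γ → ℝ} {C : ℝ} (hF : ∀ g, |F g| ≤ C) :
    cj (JC hν hα) ((H538.fst (H790.baseL (H85.cdat ν hν).μ (Γ × Γ) Unit)).mp F) =
      cst hν (tens (AF hα F) 1) :=
  cj_JC_cst hν hα (uR_mp hα hF)

theorem JC_Om (i : Unit) : JC hν hα (H790.ept (H85.cdat ν hν).μ i) = OmC hν Λ := by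
  refine Lp.ext ?_
  filter_upwards [JC_ae hν hα (H790.ept (H85.cdat ν hν).μ i),
    Lp.coeFn_const (p := 2) (μ := (H85.cdat ν hν).μ) (ep i : Ell2 ((Γ × Γ) × Unit)),
    Lp.coeFn_const (p := 2) (μ := (H85.cdat ν hν).μ) (dl ((1, 1) : Λ × Λ) : Ell2 (Λ × Λ))]
    with x h1 h2 h3
  rw [h1]
  have h4 : (H790.ept (H85.cdat ν hν).μ i : KR hν) x = (ep i : Ell2 ((Γ × Γ) × Unit)) := h2
  rw [h4, uR_ep]
  exact h3.symm

end con

end Vale.Agent.P092.RC
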