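import Vale.Agent.P092.RC.Cc

/-!
P092, TEAM C: literal statements of the abstract blocks (`K` any Hilbert space, concrete groups).
-/

set_option linter.all false

open scoped InnerProductSpace ENNReal
open Filter Topology ContinuousLinearMap MeasureTheory TopologicalSpace

namespace Vale.Agent.P092.RC

open Vale.Agent.P092.SR (CO)
open Vale.Agent.P092.H820 (Cpv)

/-- [C-GEO] -/
def GeoStmt : Prop :=
  ∀ (k : Type) [NontriviallyNormedField k] [ProperSpace k] [IsUltrametricDist k] (m : ℕ), 1 ≤ m →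
    Geo (cc : GG k m → YY k m → PG k m) y0

/-- [C-RES] the residue theorem of one leg, with the exclusion of the trivial case. -/
def ResStmt (m : ℕ) : Prop :=
  ∀ (k : Type) [NontriviallyNormedField k] [ProperSpace k] [IsUltrametricDist k] [CharZero k]
    {Γ K : Type} [Group Γ] [NormedAddCommGroup K] [InnerProductSpace ℂ K] [CompleteSpace K]
    (π : GG k m →* (K →L[ℂ] K)) (lam : Γ →* (K →L[ℂ] K)) (W W' : Set (K →L[ℂ] K)) (Ω : K)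
    (q : Γ →* GG k m) (E : Clopens (YY k m) → (K →L[ℂ] K)) (U : Subgroup (PG k m))
    (a : PG k m → (K →L[ℂ] K)),
    Emb q → Pic π lam W Ω → Lim π lam W q y0 E → Ext π lam W W' (y0 : YY k m) E →
    Hat π lam W' Ω q cc y0 E U a →
    ∃ (δ : GG k m → PG k m) (Q : Set (YY k m × PG k m) → (K →L[ℂ] K)),
      ZFam π lam W' Ω q cc y0 E δ Q

/-- [C-LINE] #3941 (2)-(5) for the plane. -/
def LineStmt : Prop :=
  ∀ (k : Type) [NontriviallyNormedField k] [ProperSpace k] [IsUltrametricDist k] [CharZero k]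
    [ContinuousConstSMul (GG k 2) (LL k)]
    {Γ K : Type} [Group Γ] [NormedAddCommGroup K] [InnerProductSpace ℂ K] [CompleteSpace K]
    (π : GG k 2 →* (K →L[ℂ] K)) (lam : Γ →* (K →L[ℂ] K)) (W W' : Set (K →L[ℂ] K)) (Ω : K)
    (q : Γ →* GG k 2) (E : Clopens (YY k 2) → (K →L[ℂ] K)) (δ : GG k 2 → PG k 2)
    (Q : Set (YY k 2 × PG k 2) → (K →L[ℂ] K)),
    Emb q → Pic π lam W Ω → Lim π lam W q y0 E → Ext π lam W W' (y0 : YY k 2) E →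
    ZFam π lam W' Ω q cc y0 E δ Q →
    ∃ F : Clopens (LL k) → (K →L[ℂ] K), LFam π lam W q (y0 : YY k 2) inc l0 Q F

/-- [C7-R] the two legs commute at one source point. -/
def CrossStmt (m : ℕ) : Prop :=
  ∀ (k : Type) [NontriviallyNormedField k] [ProperSpace k] [IsUltrametricDist k] [CharZero k]
    {Γ K : Type} [Group Γ] [NormedAddCommGroup K] [InnerProductSpace ℂ K] [CompleteSpace K]
    (π : GG k m →* (K →L[ℂ] K)) (lam₁ lam₂ : Γ →* (K →L[ℂ] K)) (X : Set (K →L[ℂ] K)) (Ω : K)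
    (q₁ q₂ : Γ →* GG k m) (E₁ E₂ : Clopens (YY k m) → (K →L[ℂ] K)) (δ₁ δ₂ : GG k m → PG k m)
    (Q₁ Q₂ : Set (YY k m × PG k m) → (K →L[ℂ] K)),
    Emb q₁ → Emb q₂ → Pic2 π lam₁ lam₂ X Ω →
    Lim π lam₁ (X ∪ Set.range lam₂) q₁ y0 E₁ → Lim π lam₂ (X ∪ Set.range lam₁) q₂ y0 E₂ →
    (∀ C C', E₁ C * E₂ C' = E₂ C' * E₁ C) →
    ZFam π lam₁ (X ∪ Set.range lam₂ ∪ Set.range E₂) Ω q₁ cc y0 E₁ δ₁ Q₁ →
    ZFam π lam₂ (X ∪ Set.range lam₁ ∪ Set.range E₁) Ω q₂ cc y0 E₂ δ₂ Q₂ →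
    ∀ C C', CO C → CO C' → Q₁ C * Q₂ C' = Q₂ C' * Q₁ C

/-! ### The output of the analysis, both legs -/

/-- [C-ANA] everything that the analysis delivers. -/
structure Ana {k Γ K : Type} [NontriviallyNormedField k] [ProperSpace k] [IsUltrametricDist k]
    [Group Γ] [NormedAddCommGroup K] [InnerProductSpace ℂ K] [CompleteSpace K] (m : ℕ)
    (π : GG k m →* (K →L[ℂ] K)) (lam₁ lam₂ : Γ →* (K →L[ℂ] K)) (X : Set (K →L[ℂ] K)) (Ω : K)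
    (q₁ q₂ : Γ →* GG k m) (E₁ E₂ : Clopens (YY k m) → (K →L[ℂ] K)) : Prop where
  emb₁ : Emb q₁
  emb₂ : Emb q₂
  lim₁ : Lim π lam₁ (X ∪ Set.range lam₂) q₁ y0 E₁
  lim₂ : Lim π lam₂ (X ∪ Set.range lam₁) q₂ y0 E₂
  comm : ∀ C C', E₁ C * E₂ C' = E₂ C' * E₁ C
  hat₁ : ∃ U a, Hat π lam₁ (X ∪ Set.range lam₂ ∪ Set.range E₂) Ω q₁ cc y0 E₁ U a
  hat₂ : ∃ U a, Hat π lam₂ (X ∪ Set.range lam₁ ∪ Set.range E₁) Ω q₂ cc y0 E₂ U a

/-- The output before the end: line families in both legs, all commuting. -/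
structure Out {k Γ K : Type} [NontriviallyNormedField k] [ProperSpace k] [IsUltrametricDist k]
    [ContinuousConstSMul (GG k 2) (LL k)] [Group Γ] [NormedAddCommGroup K] [InnerProductSpace ℂ K]
    [CompleteSpace K] (π : GG k 2 →* (K →L[ℂ] K)) (lam₁ lam₂ : Γ →* (K →L[ℂ] K))
    (X : Set (K →L[ℂ] K)) (q₁ q₂ : Γ →* GG k 2) (F₁ F₂ : Clopens (LL k) → (K →L[ℂ] K)) : Prop where
  emb₁ : Emb q₁
  emb₂ : Emb q₂
  cpv₁ : Cpv F₁
  cpv₂ : Cpv F₂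
  cm₁ : ∀ C, Cm (X ∪ Set.range lam₂) (F₁ C)
  cm₂ : ∀ C, Cm (X ∪ Set.range lam₁) (F₂ C)
  cov₁ : ∀ γ C, lam₁ γ * F₁ C * lam₁ γ⁻¹ = F₁ (sm (q₁ γ) C)
  cov₂ : ∀ γ C, lam₂ γ * F₂ C * lam₂ γ⁻¹ = F₂ (sm (q₂ γ) C)
  par₁ : ∀ p : GG k 2, p • (l0 : LL k) = l0 → ∀ C, π p * F₁ C = F₁ C * π p
  par₂ : ∀ p : GG k 2, p • (l0 : LL k) = l0 → ∀ C, π p * F₂ C = F₂ C * π p
  comm₁ : ∀ g C C', F₁ C * (π g * F₁ C' * π g⁻¹) = π g * F₁ C' * π g⁻¹ * F₁ C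
  comm₂ : ∀ g C C', F₂ C * (π g * F₂ C' * π g⁻¹) = π g * F₂ C' * π g⁻¹ * F₂ C
  comm₁₂ : ∀ g C C', F₁ C * (π g * F₂ C' * π g⁻¹) = π g * F₂ C' * π g⁻¹ * F₁ C

end Vale.Agent.P092.RC
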