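import Vale.Agent.P092.RC.Core
import Vale.Agent.P092.RC.Trans

/-!
P092, TEAM C: reduction of the output of the analysis to one leg; the other leg is obtained with the
flip of `Λ × Λ`.
-/

set_option linter.all false

open scoped InnerProductSpace ENNReal
open Filter Topology ContinuousLinearMap MeasureTheory TopologicalSpace

namespace Vale.Agent.P092.RC

open Vale.Agent.P092.SR Vale.Agent.P092.H160

section con

variable {k : Type} [NontriviallyNormedField k] {m : ℕ} [LocallyCompactSpace (GG k m)]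
  [SecondCountableTopology (GG k m)] [MeasurableSpace (GG k m)] [BorelSpace (GG k m)]
  {Γ : Subgroup (GG k m)} [DiscreteTopology Γ] [Countable Γ] [MeasurableSpace (GG k m ⧸ Γ)]
  [BorelSpace (GG k m ⧸ Γ)] {ν : Measure (GG k m ⧸ Γ)} [IsProbabilityMeasure ν]
  (hν : ∀ g : GG k m, ν.map (fun x => g • x) = ν)
  {Λ : Type} [Group Λ] {α : Γ →* (Ell2 Λ →L[ℂ] Ell2 Λ)} (hα : Frame α)

/-- a constant operator -/
noncomputable abbrev cst (A : Ell2 (Λ × Λ) →L[ℂ] Ell2 (Λ × Λ)) : KC hν Λ →L[ℂ] KC hν Λ :=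
  A.compLpL 2 (H85.cdat ν hν).μ

/-- the flip of the two legs -/
noncomputable def swL (Λ : Type) : KC hν Λ →L[ℂ] KC hν Λ := cst hν sw

theorem swL_sq : swL hν Λ * swL hν Λ = 1 := by
  have h1 := H790.comp_mul (μ := (H85.cdat ν hν).μ) (sw : Ell2 (Λ × Λ) →L[ℂ] Ell2 (Λ × Λ)) sw
  rw [H839.sw_sw, H790.comp_one] at h1
  exact h1.symm

theorem swL_swL (ξ : KC hν Λ) : swL hν Λ (swL hν Λ ξ) = ξ :=
  congrArg (fun T : KC hν Λ →L[ℂ] KC hν Λ => T ξ) (swL_sq hν)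

theorem adjoint_swL : adjoint (swL hν Λ) = swL hν Λ := by
  rw [swL, H790.comp_adjoint]
  congr 1
  rw [sw, adjoint_rei]
  rfl

/-- the flip as a unitary -/
noncomputable def flU (Λ : Type) [Group Λ] : KC hν Λ ≃ₗᵢ[ℂ] KC hν Λ :=
  LinearIsometryEquiv.mk
    (LinearEquiv.mk (swL hν Λ : KC hν Λ →ₗ[ℂ] KC hν Λ) (swL hν Λ) (swL_swL hν) (swL_swL hν))
    (fun ξ => by
      have h1 : ⟪swL hν Λ ξ, swL hν Λ ξ⟫_ℂ = ⟪ξ, ξ⟫_ℂ := by
        rw [← adjoint_inner_right, adjoint_swL, swL_swL]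
      rw [inner_self_eq_norm_sq_to_K, inner_self_eq_norm_sq_to_K] at h1
      have h2 : ‖swL hν Λ ξ‖ ^ 2 = ‖ξ‖ ^ 2 := by exact_mod_cast h1
      exact (pow_left_inj₀ (norm_nonneg _) (norm_nonneg _) two_ne_zero).mp h2)

theorem flU_ap (ξ : KC hν Λ) : flU hν Λ ξ = swL hν Λ ξ := rfl

theorem cj_flU (T : KC hν Λ →L[ℂ] KC hν Λ) : cj (flU hν Λ) T = swL hν Λ * T * swL hν Λ := rfl

theorem cj_cj_flU (T : KC hν Λ →L[ℂ] KC hν Λ) : cj (flU hν Λ) (cj (flU hν Λ) T) = T := by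
  rw [cj_flU, cj_flU]
  calc _ = (swL hν Λ * swL hν Λ) * T * (swL hν Λ * swL hν Λ) := by simp only [mul_assoc]
    _ = T := by rw [swL_sq, one_mul, mul_one]

theorem cj_cst (A : Ell2 (Λ × Λ) →L[ℂ] Ell2 (Λ × Λ)) :
    cj (flU hν Λ) (cst hν A) = cst hν (H839.swp A) := by
  rw [cj_flU, H839.swp, swL, mul_assoc, ← H790.comp_mul, ← H790.comp_mul]

theorem cj_pi (g : GG k m) : cj (flU hν Λ) (piC hν hα g) = piC hν hα g := by
  have h1 : ∀ v, (sw : Ell2 (Λ × Λ) →L[ℂ] Ell2 (Λ × Λ)) * VV α v = VV α v * sw := fun v => by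
    have h2 : sw * (Del (α v) * sw) = Del (α v) := H839.swp_Del fun t => hα.comm v t
    calc sw * VV α v = sw * VV α v * (sw * sw) := by rw [H839.sw_sw, mul_one]
      _ = sw * (Del (α v) * sw) * sw := by simp only [mul_assoc]; rfl
      _ = VV α v * sw := by rw [h2]; rfl
  have h3 := H34.Ind.pi_comp (H85.cdat ν hν) (V := VV α) (H839.adj_VV hα) g h1
  rw [cj_flU]
  calc _ = swL hν Λ * (piC hν hα g * swL hν Λ) := mul_assoc _ _ _
    _ = swL hν Λ * (swL hν Λ * piC hν hα g) := by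
        congr 1
    _ = _ := by rw [← mul_assoc, swL_sq, one_mul]

theorem cj_ind {S : Set (H85.cdat ν hν).X} (hS : MeasurableSet S) :
    cj (flU hν Λ) (H790.ind (H85.cdat ν hν).μ (Ell2 (Λ × Λ)) S) =
      H790.ind (H85.cdat ν hν).μ (Ell2 (Λ × Λ)) S := by
  rw [cj_flU, swL, H790.ind_comp hS, mul_assoc]
  have h1 := swL_sq hν (Λ := Λ)
  rw [swL] at h1
  rw [h1, mul_one]

theorem cj_XC : cj (flU hν Λ) '' (XC hν Λ) = XC hν Λ := by
  ext T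
  constructor
  · rintro ⟨_, ⟨S, hS, rfl⟩, rfl⟩
    exact ⟨S, hS, cj_ind hν hS⟩
  · rintro ⟨S, hS, rfl⟩
    exact ⟨_, ⟨S, hS, rfl⟩, cj_ind hν hS⟩

theorem cj_lam₁ (γ : Γ) : cj (flU hν Λ) (lamC hν (RR₁ α) γ) = lamC hν (RR₂ α) γ := by
  have h1 := cj_cst hν (RR₁ α γ)
  have h2 : H839.swp (RR₁ α γ) = RR₂ α γ := H839.swp_tens _ _
  rw [h2] at h1
  exact h1

theorem cj_lam₂ (γ : Γ) : cj (flU hν Λ) (lamC hν (RR₂ α) γ) = lamC hν (RR₁ α) γ := by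
  rw [← cj_lam₁, cj_cj_flU]

theorem flU_Om : flU hν Λ (OmC hν Λ) = OmC hν Λ := by
  rw [flU_ap, swL, OmC]
  have h1 : (sw : Ell2 (Λ × Λ) →L[ℂ] Ell2 (Λ × Λ)) (dl (1, 1)) = dl (1, 1) := by
    rw [sw, rei_dl]; rfl
  refine Lp.ext ?_
  filter_upwards [(sw : Ell2 (Λ × Λ) →L[ℂ] Ell2 (Λ × Λ)).coeFn_compLpL (p := 2)
    (μ := (H85.cdat ν hν).μ) (Lp.const 2 (H85.cdat ν hν).μ (dl ((1, 1) : Λ × Λ))),
    Lp.coeFn_const (p := 2) (μ := (H85.cdat ν hν).μ) (dl ((1, 1) : Λ × Λ) : Ell2 (Λ × Λ))]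
    with x h2 h3
  rw [h2, h3]
  exact h1

/-- the family of the other leg -/
noncomputable def flp {Y : Type} (E : Y → (KC hν Λ →L[ℂ] KC hν Λ)) :
    Y → (KC hν Λ →L[ℂ] KC hν Λ) := fun C => cj (flU hν Λ) (E C)

theorem flp_flp {Y : Type} (E : Y → (KC hν Λ →L[ℂ] KC hν Λ)) : flp hν (flp hν E) = E :=
  funext fun C => cj_cj_flU hν (E C)

theorem cj_range {Y : Type} (E : Y → (KC hν Λ →L[ℂ] KC hν Λ)) :
    cj (flU hν Λ) '' (Set.range E) = Set.range (flp hν E) := by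
  rw [← Set.range_comp]; rfl

theorem cj_range₁ : cj (flU hν Λ) '' (Set.range (lamC hν (RR₁ α))) =
    Set.range (lamC hν (RR₂ α)) := by
  rw [← Set.range_comp]
  congr 1
  exact funext fun γ => cj_lam₁ hν γ

theorem cj_range₂ : cj (flU hν Λ) '' (Set.range (lamC hν (RR₂ α))) =
    Set.range (lamC hν (RR₁ α)) := by
  rw [← Set.range_comp]
  congr 1
  exact funext fun γ => cj_lam₂ hν γ

theorem tw_fl : Tw (flU hν Λ) (piC hν hα) (lamC hν (RR₁ α))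
    (XC hν Λ ∪ Set.range (lamC hν (RR₂ α))) (OmC hν Λ) (piC hν hα) (lamC hν (RR₂ α))
    (XC hν Λ ∪ Set.range (lamC hν (RR₁ α))) (OmC hν Λ) where
  pi g := (cj_pi hν hα g).symm
  lam γ := (cj_lam₁ hν γ).symm
  W := by rw [Set.image_union, cj_XC, cj_range₂]
  Om := (flU_Om hν).symm

theorem tw_fl' {Y : Type} (E : Y → (KC hν Λ →L[ℂ] KC hν Λ)) :
    Tw (flU hν Λ) (piC hν hα) (lamC hν (RR₁ α))
    (XC hν Λ ∪ Set.range (lamC hν (RR₂ α)) ∪ Set.range (flp hν E)) (OmC hν Λ) (piC hν hα)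
    (lamC hν (RR₂ α)) (XC hν Λ ∪ Set.range (lamC hν (RR₁ α)) ∪ Set.range E) (OmC hν Λ) where
  pi g := (cj_pi hν hα g).symm
  lam γ := (cj_lam₁ hν γ).symm
  W := by rw [Set.image_union, Set.image_union, cj_XC, cj_range₂, cj_range, flp_flp]
  Om := (flU_Om hν).symm

/-- The output of the analysis, one leg. -/
structure Half (q : Γ →* GG k m) (b : GG k m)
    (E : Clopens (YY k m) → (KC hν Λ →L[ℂ] KC hν Λ)) : Prop where
  emb : Emb q
  lim : Lim (piC hν hα) (lamC hν (RR₁ α)) (XC hν Λ ∪ Set.range (lamC hν (RR₂ α))) q y0 E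
  /-- approximation by translates of constant operators of the leg -/
  app : ∀ C, ∃ A : ℕ → (Ell2 Λ →L[ℂ] Ell2 Λ),
    (∃ B : ℝ, ∀ n, ‖tens (A n) (1 : Ell2 Λ →L[ℂ] Ell2 Λ)‖ ≤ B) ∧
    ∀ ξ, Tendsto (fun n => piC hν hα (b ^ n)⁻¹ (cst hν (tens (A n) 1) (piC hν hα (b ^ n) ξ)))
      atTop (𝓝 (E C ξ))
  hat : ∃ U a, Hat (piC hν hα) (lamC hν (RR₁ α))
    (XC hν Λ ∪ Set.range (lamC hν (RR₂ α)) ∪ Set.range (flp hν E)) (OmC hν Λ) q cc y0 E U a

theorem lim_comm {K : Type} [NormedAddCommGroup K] [InnerProductSpace ℂ K] [CompleteSpace K]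
    {S T : ℕ → (K →L[ℂ] K)} {A B : K →L[ℂ] K} {c d : ℝ} (hS : ∀ n, ‖S n‖ ≤ c)
    (hT : ∀ n, ‖T n‖ ≤ d) (h1 : ∀ ξ, Tendsto (fun n => S n ξ) atTop (𝓝 (A ξ)))
    (h2 : ∀ ξ, Tendsto (fun n => T n ξ) atTop (𝓝 (B ξ))) (h : ∀ n, S n * T n = T n * S n) :
    A * B = B * A := by
  have key : ∀ {S T : ℕ → (K →L[ℂ] K)} {A B : K →L[ℂ] K} {c : ℝ}, (∀ n, ‖S n‖ ≤ c) →
      (∀ ξ, Tendsto (fun n => S n ξ) atTop (𝓝 (A ξ))) →
      (∀ ξ, Tendsto (fun n => T n ξ) atTop (𝓝 (B ξ))) →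
      ∀ ξ, Tendsto (fun n => S n (T n ξ)) atTop (𝓝 (A (B ξ))) := by
    intro S T A B c hS h1 h2 ξ
    have h3 : Tendsto (fun n => S n (T n ξ - B ξ)) atTop (𝓝 0) := by
      have h4 : Tendsto (fun n => c * ‖T n ξ - B ξ‖) atTop (𝓝 0) := by
        have h5 := ((h2 ξ).sub_const (B ξ)).norm.const_mul c
        simpa using h5
      refine squeeze_zero_norm (fun n => ?_) h4
      exact ((S n).le_opNorm _).trans (mul_le_mul_of_nonneg_right (hS n) (norm_nonneg _))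
    have h6 := h3.add (h1 (B ξ))
    simp only [map_sub, sub_add_cancel, zero_add] at h6
    exact h6
  ext1 ξ
  refine tendsto_nhds_unique (key hS h1 h2 ξ) ?_
  have h7 := key hT h2 h1 ξ
  refine h7.congr fun n => ?_
  exact congrArg (fun X : K →L[ℂ] K => X ξ) (h n).symm

theorem norm_piC_le (g : GG k m) : ‖piC hν hα g‖ ≤ 1 :=
  H34.Ind.norm_le_of_adj (fun v => H34.Ind.adjoint_pi (H85.cdat ν hν) (H839.adj_VV hα) v) g

theorem norm_cst_le (A : Ell2 (Λ × Λ) →L[ℂ] Ell2 (Λ × Λ)) : ‖cst hν A‖ ≤ ‖A‖ :=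
  ContinuousLinearMap.norm_compLpL_le A

theorem Half.ana [ProperSpace k] [IsUltrametricDist k] {q : Γ →* GG k m} {b : GG k m}
    {E : Clopens (YY k m) → (KC hν Λ →L[ℂ] KC hν Λ)} (h : Half hν hα q b E) :
    Ana m (piC hν hα) (lamC hν (RR₁ α)) (lamC hν (RR₂ α)) (XC hν Λ) (OmC hν Λ) q q E
      (flp hν E) where
  emb₁ := h.emb
  emb₂ := h.emb
  lim₁ := h.lim
  lim₂ := (tw_fl hν hα).lim h.lim
  comm C C' := by
    obtain ⟨A, ⟨c, hc⟩, hA⟩ := h.app C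
    obtain ⟨B, ⟨d, hd⟩, hB⟩ := h.app C'
    set S : ℕ → (KC hν Λ →L[ℂ] KC hν Λ) := fun n =>
      piC hν hα (b ^ n)⁻¹ * cst hν (tens (A n) 1) * piC hν hα (b ^ n) with hS
    set T : ℕ → (KC hν Λ →L[ℂ] KC hν Λ) := fun n =>
      piC hν hα (b ^ n)⁻¹ * cst hν (tens (B n) 1) * piC hν hα (b ^ n) with hT
    have hb : ∀ (X : Ell2 (Λ × Λ) →L[ℂ] Ell2 (Λ × Λ)) (e : ℝ), ‖X‖ ≤ e → ∀ g : GG k m,
        ‖piC hν hα g⁻¹ * cst hν X * piC hν hα g‖ ≤ e := by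
      intro X e hX g
      have h1 : ‖piC hν hα g⁻¹ * cst hν X‖ ≤ e :=
        (norm_mul_le _ _).trans ((mul_le_of_le_one_left (norm_nonneg _) (norm_piC_le hν hα _)).trans
          ((norm_cst_le hν X).trans hX))
      exact (norm_mul_le _ _).trans ((mul_le_of_le_one_right (norm_nonneg _)
        (norm_piC_le hν hα _)).trans h1)
    have hT' : ∀ n, cj (flU hν Λ) (T n) =
        piC hν hα (b ^ n)⁻¹ * cst hν (tens 1 (B n)) * piC hν hα (b ^ n) := by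
      intro n
      rw [hT]
      simp only [map_mul, cj_pi, cj_cst, H839.swp_tens]
    refine lim_comm (S := S) (T := fun n => cj (flU hν Λ) (T n)) (d := d)
      (fun n => hb _ _ (hc n) _) (fun n => ?_) hA (fun ξ => ?_) fun n => ?_
    · rw [norm_cj]
      exact hb _ _ (hd n) _
    · have h1 := hB ((flU hν Λ).symm ξ)
      exact ((flU hν Λ).continuous.tendsto _).comp h1
    · rw [hT', hS]
      have h2 : (cst hν (tens (A n) 1) : KC hν Λ →L[ℂ] KC hν Λ) * cst hν (tens 1 (B n)) =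
          cst hν (tens 1 (B n)) * cst hν (tens (A n) 1) := by
        rw [← H790.comp_mul, ← H790.comp_mul, ← tens_mul, ← tens_mul, one_mul, mul_one, one_mul,
          mul_one]
      have h3 : piC hν hα (b ^ n) * piC hν hα (b ^ n)⁻¹ = 1 := by
        rw [← map_mul, mul_inv_cancel, map_one]
      have h4 : ∀ X Y : KC hν Λ →L[ℂ] KC hν Λ,
          (piC hν hα (b ^ n)⁻¹ * X * piC hν hα (b ^ n)) *
            (piC hν hα (b ^ n)⁻¹ * Y * piC hν hα (b ^ n)) =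
          piC hν hα (b ^ n)⁻¹ * (X * Y) * piC hν hα (b ^ n) := by
        intro X Y
        calc _ = piC hν hα (b ^ n)⁻¹ * X * (piC hν hα (b ^ n) * piC hν hα (b ^ n)⁻¹) * Y *
            piC hν hα (b ^ n) := by simp only [mul_assoc]
          _ = _ := by rw [h3, mul_one]; simp only [mul_assoc]
      change (piC hν hα (b ^ n)⁻¹ * cst hν (tens (A n) 1) * piC hν hα (b ^ n)) * _ =
        _ * (piC hν hα (b ^ n)⁻¹ * cst hν (tens (A n) 1) * piC hν hα (b ^ n))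
      rw [h4, h4, h2]
  hat₁ := h.hat
  hat₂ := by
    obtain ⟨U, a, h1⟩ := h.hat
    exact ⟨U, _, (tw_fl' hν hα E).hat h1⟩

end con

/-- [C-HALF] the output of the analysis for one leg -/
def HalfStmt (m : ℕ) : Prop :=
  ∀ (k : Type) [NontriviallyNormedField k] [ProperSpace k] [IsUltrametricDist k] [CharZero k]
    [LocallyCompactSpace (GG k m)] [SecondCountableTopology (GG k m)] [MeasurableSpace (GG k m)]
    [BorelSpace (GG k m)] {Γ : Subgroup (GG k m)} [DiscreteTopology Γ] [Countable Γ]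
    [MeasurableSpace (GG k m ⧸ Γ)] [BorelSpace (GG k m ⧸ Γ)] {ν : Measure (GG k m ⧸ Γ)}
    [IsProbabilityMeasure ν] (hν : ∀ g : GG k m, ν.map (fun x => g • x) = ν)
    (_ : H515.St.IsLattice Γ) (_ : ∀ g : Γ, g ≠ 1 → Set.Infinite {y : Γ | ∃ h, y = h * g * h⁻¹})
    {Λ : Type} [Group Λ] [Countable Λ]
    (_ : ∀ g : Λ, g ≠ 1 → Set.Infinite {y : Λ | ∃ h, y = h * g * h⁻¹})
    {α : Γ →* (Ell2 Λ →L[ℂ] Ell2 Λ)} (hα : Frame α),
    ∃ (q : Γ →* GG k m) (b : GG k m) (E : Clopens (YY k m) → (KC hν Λ →L[ℂ] KC hν Λ)),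
      Half hν hα q b E

theorem anaStmt {m : ℕ} (h : HalfStmt m) : AnaStmt m := by
  intro k _ _ _ _ _ _ _ _ Γ _ _ _ _ ν _ hν hΓ hi Λ _ _ hΛ α hα
  obtain ⟨q, b, E, h1⟩ := h k hν hΓ hi hΛ hα
  exact ⟨q, q, E, flp hν E, h1.ana⟩

end Vale.Agent.P092.RC
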