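import Vale.Agent.P092.H962.C.CoreT
import Vale.Agent.P092.H962.MT4
import Vale.Agent.P092.RC.Half

/-!
P092, TEAM C, all amplifications: reduction of the output of the analysis to one leg; the other leg
is obtained with the swap of the two legs.
-/

set_option linter.all false

open scoped InnerProductSpace ENNReal
open Filter Topology ContinuousLinearMap MeasureTheory TopologicalSpace

namespace Vale.Agent.P092.RC

open Vale.Agent.P092.SR Vale.Agent.P092.H160 Vale.Agent.P092.H103 Vale.Agent.P092.H962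
open Vale.Agent.P092.H333.Amp

/-! ### Transport for families of vectors -/

section tw

variable {G Γ Y G₀ K K' ι : Type} [Group G] [TopologicalSpace G] [Group Γ] [TopologicalSpace Y]
  [MulAction G Y] [ContinuousConstSMul G Y] [Group G₀] [TopologicalSpace G₀]
  [NormedAddCommGroup K] [InnerProductSpace ℂ K] [CompleteSpace K]
  [NormedAddCommGroup K'] [InnerProductSpace ℂ K'] [CompleteSpace K'] [Fintype ι]
  {u : K ≃ₗᵢ[ℂ] K'} {π : G →* (K →L[ℂ] K)} {lam : Γ →* (K →L[ℂ] K)}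
  {W : Set (K →L[ℂ] K)} {Ω : ι → K} {π' : G →* (K' →L[ℂ] K')} {lam' : Γ →* (K' →L[ℂ] K')}
  {W' : Set (K' →L[ℂ] K')} {Ω' : ι → K'} {q : Γ →* G} {y₀ : Y} {c : G → Y → G₀}
  {E : Clopens Y → (K →L[ℂ] K)} {U : Subgroup G₀} {a : G₀ → (K →L[ℂ] K)}

theorem trnf_cj (hl : ∀ γ, lam' γ = cj u (lam γ)) (hO : ∀ i, Ω' i = u (Ω i)) (T : K →L[ℂ] K) :
    TRNF lam' Ω' (cj u T) = TRNF lam Ω T := by
  rw [TRNF, TRNF]
  refine Finset.sum_congr rfl fun i _ => ?_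
  rw [TRN, TRN]
  refine tsum_congr fun γ => ?_
  rw [hl, hO, cj_ap, cj_ap]
  congr 1
  exact u.toLinearIsometry.enorm_map _

theorem hatF_cj (hp : ∀ g, π' g = cj u (π g)) (hl : ∀ γ, lam' γ = cj u (lam γ))
    (hW : W' = cj u '' W) (hO : ∀ i, Ω' i = u (Ω i)) (h : HatF π lam W Ω q c y₀ E U a) :
    HatF π' lam' W' Ω' q c y₀ (fun C => cj u (E C)) U fun g => cj u (a g) where
  cos := h.cos
  res :=
    { bdd := by
        obtain ⟨B, hB⟩ := h.res.bdd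
        exact ⟨B, fun g => by rw [norm_cj]; exact hB g⟩
      rinv := fun g v hv => by rw [h.res.rinv g v hv]
      cm := fun g => by
        rw [hW]
        exact (cm_cj u).2 (h.res.cm g)
      rad := fun r h1 h2 g => by rw [hp, ← map_mul, ← map_mul, h.res.rad r h1 h2]
      cE := fun g C => by rw [← map_mul, ← map_mul, h.res.cE]
      eqv := fun γ g g' C hC => by
        rw [hl, hl, ← map_mul, ← map_mul, ← map_mul, ← map_mul, h.res.eqv γ g g' C hC] }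
  pos g := cj_nonneg u (h.pos g)
  ne he := h.ne (funext fun g => by
    have h1 := congrFun he g
    change cj u (a g) = 0 at h1
    rw [← map_zero (cj u)] at h1
    exact cj_inj u h1)
  sum F hF := by
    have h1 := cj_le u (h.sum F hF)
    rwa [map_sum, map_one] at h1
  smooth := by
    obtain ⟨V, hV, h1⟩ := h.smooth
    exact ⟨V, hV, fun p hp' hy g => by rw [hp, ← map_mul, ← map_mul, h1 p hp' hy]⟩
  tb g hg C C' hC g₁ g₂ := by
    have h1 := h.tb g hg C C' hC g₁ g₂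
    rw [← trnf_cj hl hO] at h1
    simpa only [map_mul, ← hp] using h1

theorem lim_cj (hp : ∀ g, π' g = cj u (π g)) (hl : ∀ γ, lam' γ = cj u (lam γ))
    (hW : W' = cj u '' W) (h : Lim π lam W q y₀ E) :
    Lim π' lam' W' q y₀ fun C => cj u (E C) where
  cpv :=
    { sa := fun C => by rw [star_cj, h.cpv.sa]
      inf := fun C D => by rw [h.cpv.inf, map_mul]
      compl := fun C => by rw [h.cpv.compl, map_sub, map_one] }
  cm C := by
    rw [hW]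
    exact (cm_cj u).2 (h.cm C)
  cov γ C := by rw [hl, hl, ← map_mul, ← map_mul, h.cov]
  par p hy C := by rw [hp, ← map_mul, ← map_mul, h.par p hy]

theorem conj_aux {M : Type} [Monoid M] {S P : M} (h1 : S * S = 1) (h3 : P * S = S * P) :
    S * P * S = P := by rw [mul_assoc, h3, ← mul_assoc, h1, one_mul]

end tw

section flip

variable {k Γ K ι : Type} [NontriviallyNormedField k] [ProperSpace k] [IsUltrametricDist k]
  [Group Γ] [NormedAddCommGroup K] [InnerProductSpace ℂ K] [CompleteSpace K] [Fintype ι] {m : ℕ}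
  {π : GG k m →* (K →L[ℂ] K)} {lam₁ lam₂ : Γ →* (K →L[ℂ] K)} {X : Set (K →L[ℂ] K)}
  {Ω Ω' : ι → K} {q : Γ →* GG k m} {E : Clopens (YY k m) → (K →L[ℂ] K)}

theorem range_cj {Y : Type} (u : K ≃ₗᵢ[ℂ] K) (F : Y → (K →L[ℂ] K)) :
    cj u '' (Set.range F) = Set.range fun y => cj u (F y) := by
  rw [← Set.range_comp]; rfl

/-- both legs from one leg with a flip -/
theorem anaF_of_flip (u : K ≃ₗᵢ[ℂ] K) (huu : ∀ T, cj u (cj u T) = T)
    (hp : ∀ g, cj u (π g) = π g) (hl : ∀ γ, cj u (lam₁ γ) = lam₂ γ) (hX : cj u '' X = X)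
    (hO : ∀ i, Ω i = u (Ω' i)) (he : Emb q)
    (hE : Lim π lam₁ (X ∪ Set.range lam₂) q y0 E)
    (hc : ∀ C C', E C * cj u (E C') = cj u (E C') * E C)
    (h₁ : ∃ U a, HatF π lam₁ (X ∪ Set.range lam₂ ∪ Set.range fun C => cj u (E C)) Ω q cc y0 E U a)
    (h₂ : ∃ U a, HatF π lam₁ (X ∪ Set.range lam₂ ∪ Set.range fun C => cj u (E C)) Ω' q cc y0 E
      U a) :
    AnaF m π lam₁ lam₂ X Ω q q E fun C => cj u (E C) where
  emb₁ := he
  emb₂ := he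
  lim₁ := hE
  lim₂ := lim_cj (fun g => (hp g).symm) (fun γ => (hl γ).symm) (by
    rw [Set.image_union, hX, range_cj]
    congr 2
    funext γ
    rw [← hl, huu]) hE
  comm := hc
  hat₁ := h₁
  hat₂ := by
    obtain ⟨U, a, h1⟩ := h₂
    refine ⟨U, _, hatF_cj (fun g => (hp g).symm) (fun γ => (hl γ).symm) ?_ hO h1⟩
    rw [Set.image_union, Set.image_union, hX, range_cj, range_cj]
    congr 2
    · congr 2
      funext γ
      rw [← hl, huu]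
    · congr 1
      funext C
      rw [huu]

end flip

section trif

variable {Γ ℋ : Type} [Group Γ] [NormedAddCommGroup ℋ] [InnerProductSpace ℂ ℋ] [CompleteSpace ℋ]
  {V R₁ R₂ : Γ →* (ℋ →L[ℂ] ℋ)} {s : ℋ →L[ℂ] ℋ}

theorem tri_flip (hs : s * s = 1) (ha : adjoint s = s) (hn : ∀ v, ‖s v‖ = ‖v‖)
    (h₁ : ∀ γ, s * R₁ γ = R₂ γ * s) (h₂ : ∀ γ, s * R₂ γ = R₁ γ * s) {ι : Type} [Fintype ι]
    {ξ : ι → ℋ} (h : Tri V R₁ R₂ ξ) : Tri V R₁ R₂ fun i => s (ξ i) where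
  adjV := h.adjV
  adj₁ := h.adj₁
  adj₂ := h.adj₂
  comm₁ := h.comm₁
  comm₂ := h.comm₂
  comm₁₂ := h.comm₁₂
  ne := by
    obtain ⟨j, hj⟩ := h.ne
    refine ⟨j, fun h0 => hj ?_⟩
    have h1 := hn (ξ j)
    rw [h0, norm_zero] at h1
    exact norm_eq_zero.1 h1.symm
  frame := fun η => by
    have h1 := h.frame (s η)
    rw [hn η] at h1
    have h2 : (fun p : ι × Γ × Γ => ‖⟪R₁ p.2.1 (R₂ p.2.2 (ξ p.1)), s η⟫_ℂ‖ ^ 2) =
        (fun p : ι × Γ × Γ => ‖⟪R₁ p.2.1 (R₂ p.2.2 (s (ξ p.1))), η⟫_ℂ‖ ^ 2) ∘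
          (Equiv.prodCongr (Equiv.refl ι) (Equiv.prodComm Γ Γ)) := by
      funext p
      obtain ⟨i, a, b⟩ := p
      have e1 : s (R₁ a (R₂ b (ξ i))) = R₂ a (R₁ b (s (ξ i))) := by
        have a1 : s (R₁ a (R₂ b (ξ i))) = R₂ a (s (R₂ b (ξ i))) :=
          congrArg (fun T : ℋ →L[ℂ] ℋ => T (R₂ b (ξ i))) (h₁ a)
        have a2 : s (R₂ b (ξ i)) = R₁ b (s (ξ i)) :=
          congrArg (fun T : ℋ →L[ℂ] ℋ => T (ξ i)) (h₂ b)
        rw [a1, a2]
      have e3 : R₂ a (R₁ b (s (ξ i))) = R₁ b (R₂ a (s (ξ i))) :=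
        (congrArg (fun T : ℋ →L[ℂ] ℋ => T (s (ξ i))) (h.comm₁₂ b a)).symm
      have e2 : ⟪R₁ a (R₂ b (ξ i)), s η⟫_ℂ = ⟪R₁ b (R₂ a (s (ξ i))), η⟫_ℂ := by
        have e4 : ∀ x y : ℋ, ⟪x, s y⟫_ℂ = ⟪s x, y⟫_ℂ := fun x y => by
          have h5 := adjoint_inner_right s x y
          rwa [ha] at h5
        rw [← e3, ← e1, e4]
      show ‖⟪R₁ a (R₂ b (ξ i)), s η⟫_ℂ‖ ^ 2 = ‖⟪R₁ b (R₂ a (s (ξ i))), η⟫_ℂ‖ ^ 2
      rw [e2]
    rw [h2] at h1
    exact (Equiv.hasSum_iff _).1 h1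

end trif

/-! ### The swap -/

section swap

variable {Γ Λ I : Type} [Group Γ] [Group Λ] [Fintype I]
  {α : Γ → (Ell2 (I × Λ) →L[ℂ] Ell2 (I × Λ))} (hα : AF α)

/-- the swap of the two legs as a unitary -/
noncomputable def swE : HH (PT α α α) ≃ₗᵢ[ℂ] HH (PT α α α) :=
  LinearIsometryEquiv.mk
    (LinearEquiv.mk
      { toFun := swU (β := α) (γ := α) hα
        map_add' := (swap_AU hα).add
        map_smul' := (swap_AU hα).smul }
      (swU (β := α) (γ := α) hα) (swap_AU hα).inv (swap_AU hα).inv)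
    (swap_AU hα).norm

theorem swE_ap (w : HH (PT α α α)) : swE hα w = swU (β := α) (γ := α) hα w := rfl

/-- the swap as an operator -/
noncomputable def swO : HH (PT α α α) →L[ℂ] HH (PT α α α) :=
  ((swE hα).toContinuousLinearEquiv : HH (PT α α α) →L[ℂ] HH (PT α α α))

theorem swO_ap (w : HH (PT α α α)) : swO hα w = swU (β := α) (γ := α) hα w := rfl

theorem swO_sq : swO hα * swO hα = 1 := by
  ext1 w
  exact (swap_AU hα).inv w

theorem adjoint_swO : adjoint (swO hα) = swO hα := by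
  symm
  rw [ContinuousLinearMap.eq_adjoint_iff]
  intro x y
  have h1 := (swap_AU hα).inn x (swU (β := α) (γ := α) hα y)
  rw [(swap_AU hα).inv y] at h1
  exact h1

theorem swO_V (v : Γ) : swO hα * V3 hα hα hα v = V3 hα hα hα v * swO hα := by
  ext1 w
  exact swU_V hα hα hα v w

theorem swO_A (v : Γ) : swO hα * A3R hα hα hα v = B3R hα hα hα v * swO hα := by
  ext1 w
  exact swU_A hα hα hα v w

theorem swO_B (v : Γ) : swO hα * B3R hα hα hα v = A3R hα hα hα v * swO hα := by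
  ext1 w
  exact swU_B hα hα hα v w

end swap

section con

variable {k : Type} [NontriviallyNormedField k] {m : ℕ} [LocallyCompactSpace (GG k m)]
  [SecondCountableTopology (GG k m)] [MeasurableSpace (GG k m)] [BorelSpace (GG k m)]
  {Γ : Subgroup (GG k m)} [DiscreteTopology Γ] [Countable Γ] [MeasurableSpace (GG k m ⧸ Γ)]
  [BorelSpace (GG k m ⧸ Γ)] {ν : Measure (GG k m ⧸ Γ)} [IsProbabilityMeasure ν]
  (hν : ∀ g : GG k m, ν.map (fun x => g • x) = ν)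
  {Λ I : Type} [Group Λ] [Fintype I] {α : Γ → (Ell2 (I × Λ) →L[ℂ] Ell2 (I × Λ))} (hα : AF α)

theorem cst_sq_one {ℋ : Type} [NormedAddCommGroup ℋ] [InnerProductSpace ℂ ℋ] [CompleteSpace ℋ]
    {s : ℋ →L[ℂ] ℋ} (hs : s * s = 1) :
    (s.compLpL 2 (H85.cdat ν hν).μ * s.compLpL 2 (H85.cdat ν hν).μ :
      KG hν ℋ →L[ℂ] KG hν ℋ) = 1 := by
  have h1 := H790.comp_mul (μ := (H85.cdat ν hν).μ) s s
  rw [hs, H790.comp_one] at h1
  exact h1.symm

theorem cst_inv {ℋ : Type} [NormedAddCommGroup ℋ] [InnerProductSpace ℂ ℋ] [CompleteSpace ℋ]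
    {s : ℋ →L[ℂ] ℋ} (hs : s * s = 1) (ξ : KG hν ℋ) :
    s.compLpL 2 (H85.cdat ν hν).μ (s.compLpL 2 (H85.cdat ν hν).μ ξ) = ξ :=
  congrArg (fun T : KG hν ℋ →L[ℂ] KG hν ℋ => T ξ) (cst_sq_one hν hs)

theorem cst_norm {ℋ : Type} [NormedAddCommGroup ℋ] [InnerProductSpace ℂ ℋ] [CompleteSpace ℋ]
    {s : ℋ →L[ℂ] ℋ} (hs : s * s = 1) (ha : adjoint s = s) (ξ : KG hν ℋ) :
    ‖s.compLpL 2 (H85.cdat ν hν).μ ξ‖ = ‖ξ‖ := by
  have h0 : adjoint (s.compLpL 2 (H85.cdat ν hν).μ : KG hν ℋ →L[ℂ] KG hν ℋ) =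
      s.compLpL 2 (H85.cdat ν hν).μ := by
    rw [H790.comp_adjoint, ha]
  have h1 : ⟪s.compLpL 2 (H85.cdat ν hν).μ ξ, s.compLpL 2 (H85.cdat ν hν).μ ξ⟫_ℂ = ⟪ξ, ξ⟫_ℂ := by
    rw [← adjoint_inner_right, h0, cst_inv hν hs]
  rw [inner_self_eq_norm_sq_to_K, inner_self_eq_norm_sq_to_K] at h1
  have h2 : ‖s.compLpL 2 (H85.cdat ν hν).μ ξ‖ ^ 2 = ‖ξ‖ ^ 2 := by exact_mod_cast h1
  exact (pow_left_inj₀ (norm_nonneg _) (norm_nonneg _) two_ne_zero).mp h2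

/-- a constant self-adjoint unitary -/
noncomputable def flG {ℋ : Type} [NormedAddCommGroup ℋ] [InnerProductSpace ℂ ℋ] [CompleteSpace ℋ]
    {s : ℋ →L[ℂ] ℋ} (hs : s * s = 1) (ha : adjoint s = s) : KG hν ℋ ≃ₗᵢ[ℂ] KG hν ℋ :=
  LinearIsometryEquiv.mk
    (LinearEquiv.mk (s.compLpL 2 (H85.cdat ν hν).μ : KG hν ℋ →ₗ[ℂ] KG hν ℋ)
      (s.compLpL 2 (H85.cdat ν hν).μ) (cst_inv hν hs) (cst_inv hν hs))
    (cst_norm hν hs ha)

theorem cj_flG {ℋ : Type} [NormedAddCommGroup ℋ] [InnerProductSpace ℂ ℋ] [CompleteSpace ℋ]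
    {s : ℋ →L[ℂ] ℋ} (hs : s * s = 1) (ha : adjoint s = s) (T : KG hν ℋ →L[ℂ] KG hν ℋ) :
    cj (flG hν hs ha) T =
      s.compLpL 2 (H85.cdat ν hν).μ * T * s.compLpL 2 (H85.cdat ν hν).μ := rfl

theorem cj_cj_flG {ℋ : Type} [NormedAddCommGroup ℋ] [InnerProductSpace ℂ ℋ] [CompleteSpace ℋ]
    {s : ℋ →L[ℂ] ℋ} (hs : s * s = 1) (ha : adjoint s = s) (T : KG hν ℋ →L[ℂ] KG hν ℋ) :
    cj (flG hν hs ha) (cj (flG hν hs ha) T) = T := by
  rw [cj_flG, cj_flG]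
  obtain ⟨S, hS⟩ : ∃ S : KG hν ℋ →L[ℂ] KG hν ℋ, S = s.compLpL 2 (H85.cdat ν hν).μ := ⟨_, rfl⟩
  have h1 := cst_sq_one hν hs
  rw [← hS] at h1 ⊢
  calc _ = (S * S) * T * (S * S) := by simp only [mul_assoc]
    _ = T := by rw [h1, one_mul, mul_one]

theorem cj_flG_pi {ℋ : Type} [NormedAddCommGroup ℋ] [InnerProductSpace ℂ ℋ] [CompleteSpace ℋ]
    {s : ℋ →L[ℂ] ℋ} (hs : s * s = 1) (ha : adjoint s = s) {V : Γ →* (ℋ →L[ℂ] ℋ)}
    (hV : ∀ v, adjoint (V v) = V v⁻¹) (hsV : ∀ v, s * V v = V v * s) (g : GG k m) :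
    cj (flG hν hs ha) (H34.Ind.pi (H85.cdat ν hν) (V := V) hV g) =
      H34.Ind.pi (H85.cdat ν hν) (V := V) hV g := by
  have h3 := H34.Ind.pi_comp (H85.cdat ν hν) (V := V) hV g hsV
  exact conj_aux (cst_sq_one hν hs) h3

theorem cj_flG_cst {ℋ : Type} [NormedAddCommGroup ℋ] [InnerProductSpace ℂ ℋ] [CompleteSpace ℋ]
    {s : ℋ →L[ℂ] ℋ} (hs : s * s = 1) (ha : adjoint s = s) {A B : ℋ →L[ℂ] ℋ}
    (hAB : s * A = B * s) :
    cj (flG hν hs ha) (A.compLpL 2 (H85.cdat ν hν).μ) = B.compLpL 2 (H85.cdat ν hν).μ := by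
  rw [cj_flG, ← H790.comp_mul, ← H790.comp_mul, hAB, mul_assoc, hs, mul_one]

theorem cj_flG_ind {ℋ : Type} [NormedAddCommGroup ℋ] [InnerProductSpace ℂ ℋ] [CompleteSpace ℋ]
    {s : ℋ →L[ℂ] ℋ} (hs : s * s = 1) (ha : adjoint s = s) {S : Set (H85.cdat ν hν).X}
    (hS : MeasurableSet S) :
    cj (flG hν hs ha) (H790.ind (H85.cdat ν hν).μ ℋ S) = H790.ind (H85.cdat ν hν).μ ℋ S := by
  exact conj_aux (cst_sq_one hν hs) (H790.ind_comp hS s).symm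

theorem cj_flG_XG {ℋ : Type} [NormedAddCommGroup ℋ] [InnerProductSpace ℂ ℋ] [CompleteSpace ℋ]
    {s : ℋ →L[ℂ] ℋ} (hs : s * s = 1) (ha : adjoint s = s) :
    cj (flG hν hs ha) '' (XG hν ℋ) = XG hν ℋ := by
  ext T
  constructor
  · rintro ⟨_, ⟨S, hS, rfl⟩, rfl⟩
    exact ⟨S, hS, cj_flG_ind hν hs ha hS⟩
  · rintro ⟨S, hS, rfl⟩
    exact ⟨_, ⟨S, hS, rfl⟩, cj_flG_ind hν hs ha hS⟩

theorem flG_const {ℋ : Type} [NormedAddCommGroup ℋ] [InnerProductSpace ℂ ℋ] [CompleteSpace ℋ]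
    {s : ℋ →L[ℂ] ℋ} (hs : s * s = 1) (ha : adjoint s = s) (v : ℋ) :
    flG hν hs ha (Lp.const 2 (H85.cdat ν hν).μ v) = Lp.const 2 (H85.cdat ν hν).μ (s v) := by
  change s.compLpL 2 (H85.cdat ν hν).μ (Lp.const 2 (H85.cdat ν hν).μ v) = _
  refine Lp.ext ?_
  filter_upwards [s.coeFn_compLpL (p := 2)
    (μ := (H85.cdat ν hν).μ) (Lp.const 2 (H85.cdat ν hν).μ v),
    Lp.coeFn_const (p := 2) (μ := (H85.cdat ν hν).μ) v,
    Lp.coeFn_const (p := 2) (μ := (H85.cdat ν hν).μ) (s v)] with x h2 h3 h4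
  rw [h2, h3, h4]
  rfl

theorem OmG_flG {ℋ : Type} [NormedAddCommGroup ℋ] [InnerProductSpace ℂ ℋ] [CompleteSpace ℋ]
    {s : ℋ →L[ℂ] ℋ} (hs : s * s = 1) (ha : adjoint s = s) (hn : ∀ v, ‖s v‖ = ‖v‖) {ι : Type}
    [Fintype ι] (ξ : ι → ℋ) (i : ι) :
    OmG hν ξ i = flG hν hs ha (OmG hν (fun j => s (ξ j)) i) := by
  have h1 : s (s (ξ i)) = ξ i := congrArg (fun T : ℋ →L[ℂ] ℋ => T (ξ i)) hs
  have h2 : ∀ c : ℂ, s (c • s (ξ i)) = c • ξ i := fun c => by rw [s.map_smul, h1]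
  rw [OmG, OmG, flG_const, h2]
  simp only [hn]

/-- the swap of the two legs -/
noncomputable def flT : KG hν (HH (PT α α α)) ≃ₗᵢ[ℂ] KG hν (HH (PT α α α)) :=
  flG hν (swO_sq hα) (adjoint_swO hα)

theorem cj_cj_flT (T : KG hν (HH (PT α α α)) →L[ℂ] KG hν (HH (PT α α α))) :
    cj (flT hν hα) (cj (flT hν hα) T) = T := cj_cj_flG hν (swO_sq hα) (adjoint_swO hα) T

theorem cj_piT (g : GG k m) : cj (flT hν hα) (piT hν hα g) = piT hν hα g :=
  cj_flG_pi hν (swO_sq hα) (adjoint_swO hα) (adjV3 hα) (swO_V hα) g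

theorem cj_XG : cj (flT hν hα) '' (XG hν (HH (PT α α α))) = XG hν (HH (PT α α α)) :=
  cj_flG_XG hν (swO_sq hα) (adjoint_swO hα)

theorem cj_lamA (γ : Γ) :
    cj (flT hν hα) (lamT hν (A3R hα hα hα) γ) = lamT hν (B3R hα hα hα) γ :=
  cj_flG_cst hν (swO_sq hα) (adjoint_swO hα) (swO_A hα γ)

theorem cj_lamB (γ : Γ) :
    cj (flT hν hα) (lamT hν (B3R hα hα hα) γ) = lamT hν (A3R hα hα hα) γ :=
  cj_flG_cst hν (swO_sq hα) (adjoint_swO hα) (swO_B hα γ)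

theorem cj_rangeA : cj (flT hν hα) '' (Set.range (lamT hν (A3R hα hα hα))) =
    Set.range (lamT hν (B3R hα hα hα)) := by
  rw [← Set.range_comp]
  congr 1
  exact funext fun γ => cj_lamA hν hα γ

theorem cj_rangeB : cj (flT hν hα) '' (Set.range (lamT hν (B3R hα hα hα))) =
    Set.range (lamT hν (A3R hα hα hα)) := by
  rw [← Set.range_comp]
  congr 1
  exact funext fun γ => cj_lamB hν hα γ

/-- the family of the other leg -/
noncomputable def flpT {Y : Type} (E : Y → (KG hν (HH (PT α α α)) →L[ℂ] KG hν (HH (PT α α α)))) :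
    Y → (KG hν (HH (PT α α α)) →L[ℂ] KG hν (HH (PT α α α))) := fun C => cj (flT hν hα) (E C)

theorem flpT_flpT {Y : Type} (E : Y → (KG hν (HH (PT α α α)) →L[ℂ] KG hν (HH (PT α α α)))) :
    flpT hν hα (flpT hν hα E) = E := funext fun C => cj_cj_flT hν hα (E C)

theorem cj_rangeT {Y : Type} (E : Y → (KG hν (HH (PT α α α)) →L[ℂ] KG hν (HH (PT α α α)))) :
    cj (flT hν hα) '' (Set.range E) = Set.range (flpT hν hα E) := by
  rw [← Set.range_comp]; rfl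

theorem OmG_swap {ι : Type} [Fintype ι] (ξ : ι → HH (PT α α α)) (i : ι) :
    OmG hν ξ i = flT hν hα (OmG hν (fun j => swO hα (ξ j)) i) :=
  OmG_flG hν (swO_sq hα) (adjoint_swO hα) (fun v => (swap_AU hα).norm v) ξ i

/-- the swapped family is again a Parseval family -/
theorem tri_swap {ι : Type} [Fintype ι] {ξ : ι → HH (PT α α α)}
    (h : Tri (V3 hα hα hα) (A3R hα hα hα) (B3R hα hα hα) ξ) :
    Tri (V3 hα hα hα) (A3R hα hα hα) (B3R hα hα hα) fun i => swO hα (ξ i) :=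
  tri_flip (swO_sq hα) (adjoint_swO hα) (fun v => (swap_AU hα).norm v) (swO_A hα) (swO_B hα) h

/-- The output of the analysis, one leg, all amplifications. -/
structure HalfT (q : Γ →* GG k m)
    (E : Clopens (YY k m) → (KG hν (HH (PT α α α)) →L[ℂ] KG hν (HH (PT α α α)))) : Prop where
  emb : Emb q
  lim : Lim (piT hν hα) (lamT hν (A3R hα hα hα))
    (XG hν (HH (PT α α α)) ∪ Set.range (lamT hν (B3R hα hα hα))) q y0 E
  comm : ∀ C C', E C * flpT hν hα E C' = flpT hν hα E C' * E C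
  hat : ∀ {ι : Type} [Fintype ι] (ξ : ι → HH (PT α α α)),
    Tri (V3 hα hα hα) (A3R hα hα hα) (B3R hα hα hα) ξ →
    ∃ U a, HatF (piT hν hα) (lamT hν (A3R hα hα hα))
      (XG hν (HH (PT α α α)) ∪ Set.range (lamT hν (B3R hα hα hα)) ∪
        Set.range (flpT hν hα E)) (OmG hν ξ) q cc y0 E U a

theorem HalfT.ana [ProperSpace k] [IsUltrametricDist k] {q : Γ →* GG k m}
    {E : Clopens (YY k m) → (KG hν (HH (PT α α α)) →L[ℂ] KG hν (HH (PT α α α)))}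
    (h : HalfT hν hα q E) {ι : Type} [Fintype ι] {ξ : ι → HH (PT α α α)}
    (hξ : Tri (V3 hα hα hα) (A3R hα hα hα) (B3R hα hα hα) ξ) :
    AnaF m (piT hν hα) (lamT hν (A3R hα hα hα)) (lamT hν (B3R hα hα hα))
      (XG hν (HH (PT α α α))) (OmG hν ξ) q q E (flpT hν hα E) :=
  anaF_of_flip (flT hν hα) (cj_cj_flT hν hα) (cj_piT hν hα) (cj_lamA hν hα) (cj_XG hν hα)
    (OmG_swap hν hα ξ) h.emb h.lim h.comm (h.hat ξ hξ) (h.hat _ (tri_swap hα hξ))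

end con

/-- [C-HALF-T] the output of the analysis for one leg, all amplifications -/
def HalfStmtT (m : ℕ) : Prop :=
  ∀ (k : Type) [NontriviallyNormedField k] [ProperSpace k] [IsUltrametricDist k] [CharZero k]
    [LocallyCompactSpace (GG k m)] [SecondCountableTopology (GG k m)] [MeasurableSpace (GG k m)]
    [BorelSpace (GG k m)] {Γ : Subgroup (GG k m)} [DiscreteTopology Γ] [Countable Γ]
    [MeasurableSpace (GG k m ⧸ Γ)] [BorelSpace (GG k m ⧸ Γ)] {ν : Measure (GG k m ⧸ Γ)}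
    [IsProbabilityMeasure ν] (hν : ∀ g : GG k m, ν.map (fun x => g • x) = ν)
    (_ : H515.St.IsLattice Γ) (_ : ∀ g : Γ, g ≠ 1 → Set.Infinite {y : Γ | ∃ h, y = h * g * h⁻¹})
    {Λ : Type} [Group Λ] [Countable Λ]
    (_ : ∀ g : Λ, g ≠ 1 → Set.Infinite {y : Λ | ∃ h, y = h * g * h⁻¹})
    {I : Type} [Fintype I] {α : Γ → (Ell2 (I × Λ) →L[ℂ] Ell2 (I × Λ))} (hα : AF α),
    ∃ (q : Γ →* GG k m)
      (E : Clopens (YY k m) → (KG hν (HH (PT α α α)) →L[ℂ] KG hν (HH (PT α α α)))),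
      HalfT hν hα q E

theorem anaStmtT {m : ℕ} (h : HalfStmtT m) : AnaStmtT m := by
  intro k _ _ _ _ _ _ _ _ Γ _ _ _ _ ν _ hν hΓ hi Λ _ _ hΛ I _ α hα ι _ ξ hξ
  obtain ⟨q, E, h1⟩ := h k hν hΓ hi hΛ hα
  exact ⟨q, q, E, flpT hν hα E, h1.ana hν hα hξ⟩

end Vale.Agent.P092.RC
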