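import Vale.Agent.P092.RC.Half
import Vale.Agent.P092.H200.Coc
import Vale.Agent.P092.H791.Plane
import Vale.Agent.P092.H483.LineC
import Vale.Agent.P092.H264.EndStmt
import Vale.Agent.P092.H729.C7F
import Vale.Agent.P092.H574.Van
import Vale.Agent.P092.H684.VanAll
import Vale.Agent.P092.H231.R4
import Vale.Agent.P092.H34.PicS

/-!
P092, TEAM C: assembly of the landed blocks.
-/

set_option linter.all false

namespace Vale.Agent.P092.RC

theorem instStmt : InstStmt := fun k _ => inferInstance

theorem vanPhi : H574.VanPhi := by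
  intro k _ _ _ _ Γ K _ _ _ _ π lam W W' Ω q E δ Q hq hp hW hz d hd g hg C C' hC hC' hCD hne
  exact H684.vanish_all hq hp hW hz hd hg hC hC' hCD hne

theorem lineStmt : LineStmt := H483.lineStmt_of (H574.vanStmt_of vanPhi)

/-- Only the analysis is left. -/
theorem core3_of (ha : HalfStmt 2) : CoreAt 3 :=
  core3 instStmt H200.Coc.geoStmt H791.planeStmt (H231.resStmt 2 le_rfl) lineStmt
    (H729.crossStmt2 H200.Coc.geoStmt) (H34.PicC.picStmt 2 one_le_two) (anaStmt ha) H264.Fin.endStmt

end Vale.Agent.P092.RC
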