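import Vale.Agent.P092.H76.HalfD
import Vale.Agent.P092.H242.HatE
import Vale.Agent.P092.H34.PicS

/-!
P092, TEAM C (helper978): **`halfStmt : HalfStmt 2`**, the output of the analysis for one leg, for the
lattices of `SL_3(k)`, `k` nonarchimedean of characteristic zero.
-/

set_option linter.all false

open scoped InnerProductSpace ENNReal
open Filter Topology ContinuousLinearMap MeasureTheory TopologicalSpace

namespace Vale.Agent.P092.RC

open Vale.Agent.P092.SR Vale.Agent.P092.H160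
open Vale.Agent.P092.SD (G3 bw)

/-- **[C-HALF]** -/
theorem halfStmt : HalfStmt 2 := by
  intro k _ _ _ _ _ _ _ _ Γ _ _ _ _ ν _ hν hΓ hi Λ _ _ hΛ α hα
  obtain ⟨w, hw0, hw1, hun⟩ := H264.GrpC.exists_unif (k := k)
  have hp := H34.PicC.picStmt 2 one_le_two k (Γ := Γ) hν hΓ hi hΛ hα
  obtain ⟨q, -, hq, β, hβ⟩ := H76.HalfD.dis_row hν hα hΓ hp.leg₁ (w := Units.mk0 w hw0) hw1
  have hr := H76.HalfD.row_in hν hα (w := Units.mk0 w hw0) hw1 hq
  exact ⟨q, _, _, H242C.half_of hν hα hq (w := Units.mk0 w hw0) hw1 hun hp hr.sys.fn hβ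
    fun γ ξ => H859.CL.tendsto_pw.mp (H859.CL.Esc.esc' hr.sys.sys hr.esc γ ξ)⟩

end Vale.Agent.P092.RC
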