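import Vale.Agent.P092.RC.Fin
import Vale.Agent.P092.RC.HalfFin
import Vale.Agent.P092.RC.Top

/-!
P092, TEAM C: every ICC lattice of `SL_3(k)`, `k` a nonarchimedean local field of characteristic
zero, is `W*`-superrigid.
-/

set_option linter.all false

namespace Vale.Agent.P092.RC

theorem coreAt3 : CoreAt 3 := core3_of halfStmt

theorem final13 : St.Final13 := final13_of coreAt3

end Vale.Agent.P092.RC
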