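import Vale.Agent.P092.H21.HalfTT
import Vale.Agent.P092.H962.C.FinT
import Vale.Agent.P092.TX.Fin

/-!
P092, TEAM C, all amplifications: every ICC lattice of `SL_3(k)`, `k` a nonarchimedean local field
of characteristic zero, has the full conclusion of Q1 (`SuperAll`).
-/

set_option linter.all false

namespace Vale.Agent.P092.RC

theorem finalAll3 : FinalAll3 :=
  finalAll3_of (resX 2 le_rfl) lineX (crossX2 H200.Coc.geoStmt) (anaStmtT H21.HalfTT.halfStmtT)

end Vale.Agent.P092.RC
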