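import Vale.Agent.P092.RC.FinalT
import Vale.Agent.P092.UN.Sl3
import Vale.Agent.P092.UN.Eqv

/-!
P092, TEAM C, all amplifications: the statement in the compact letters.
-/

set_option linter.all false

namespace Vale.Agent.P092.RC

theorem superAll_lattice3 (k : Type) [NontriviallyNormedField k] [ProperSpace k]
    [IsUltrametricDist k] [CharZero k] (Γ : Type) [Group Γ] (h : UN.Lattice3 k Γ) :
    UN.SuperAll Γ := by
  obtain ⟨h1, i, hi, hl⟩ := h
  exact UN.superAll_of (finalAll3 Γ ⟨(UN.icc_iff Γ).1 h1, k, inferInstance, i, inferInstance,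
    inferInstance, inferInstance, hi, (UN.isLattice_iff i.range).1 hl⟩)

end Vale.Agent.P092.RC
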