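import Vale.Agent.P092.RC.Blocks

/-!
P092, TEAM C: assembly of the middle: from the output of the analysis to two commuting families of
lines, modulo the literal statements of `RC/Blocks.lean`.
-/

set_option linter.all false

open scoped InnerProductSpace ENNReal
open Filter Topology ContinuousLinearMap MeasureTheory TopologicalSpace

namespace Vale.Agent.P092.RC

open Vale.Agent.P092.SR (CO)
open Vale.Agent.P092.H820 (Cpv)

/-- [C-PLANE] incidence is invariant and two lines meet. -/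
def PlaneStmt : Prop :=
  ∀ (k : Type) [NontriviallyNormedField k],
    (∀ (g : GG k 2) (y : YY k 2) (l : LL k), (y, l) ∈ inc → (g • y, g • l) ∈ inc) ∧
    ∀ l l' : LL k, ∃ y : YY k 2, (y, l) ∈ inc ∧ (y, l') ∈ inc

section mid

variable {k Γ K : Type} [NontriviallyNormedField k] [ProperSpace k] [IsUltrametricDist k]
  [ContinuousConstSMul (GG k 2) (LL k)] [Group Γ] [NormedAddCommGroup K] [InnerProductSpace ℂ K]
  [CompleteSpace K] {π : GG k 2 →* (K →L[ℂ] K)} {lam₁ lam₂ : Γ →* (K →L[ℂ] K)}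
  {X : Set (K →L[ℂ] K)} {Ω : K} {q₁ q₂ : Γ →* GG k 2}
  {E₁ E₂ : Clopens (YY k 2) → (K →L[ℂ] K)}

theorem ext_of {G Γ Y K : Type} [Group G] [TopologicalSpace G] [Group Γ] [TopologicalSpace Y]
    [MulAction G Y] [ContinuousConstSMul G Y] [NormedAddCommGroup K] [InnerProductSpace ℂ K]
    [CompleteSpace K] {π : G →* (K →L[ℂ] K)} {lam lam' : Γ →* (K →L[ℂ] K)} {W W₂ : Set (K →L[ℂ] K)}
    {Ω : K} {q q' : Γ →* G} {y₀ : Y} {E E' : Clopens Y → (K →L[ℂ] K)} (hp : Pic π lam W Ω)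
    (hl : Lim π lam W q y₀ E) (hl' : Lim π lam' W₂ q' y₀ E') (hW : Set.range lam ⊆ W₂)
    (hc : ∀ C C', E C * E' C' = E' C' * E C) :
    Ext π lam W (W ∪ Set.range E') y₀ E where
  sub := Set.subset_union_left
  adj := by
    rintro w (hw | ⟨C, rfl⟩)
    · exact Or.inl (hp.Wadj w hw)
    · refine Or.inr ⟨C, ?_⟩
      have := hl'.cpv.sa C
      rw [star_eq_adjoint] at this
      exact this.symm
  par := by
    rintro w (hw | ⟨C, rfl⟩) p h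
    · exact Or.inl (hp.WP w hw p)
    · refine Or.inr ⟨C, ?_⟩
      have e : π p * π p⁻¹ = 1 := by rw [← map_mul, mul_inv_cancel, map_one]
      rw [hl'.par p h C, mul_assoc, e, mul_one]
  lam := by
    rintro w (hw | ⟨C, rfl⟩) γ
    · exact hp.WL w hw γ
    · exact hl'.cm C _ (hW ⟨γ, rfl⟩)
  cE := by
    rintro C w (hw | ⟨C', rfl⟩)
    · exact hl.cm C w hw
    · exact hc C C'

theorem conj_swap {G : Type} [Group G] {π : G →* (K →L[ℂ] K)} (g : G) {S T : K →L[ℂ] K}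
    (h : S * T = T * S) : (π g * S * π g⁻¹) * (π g * T * π g⁻¹) =
      (π g * T * π g⁻¹) * (π g * S * π g⁻¹) := by
  have e : π g⁻¹ * π g = 1 := by rw [← map_mul, inv_mul_cancel, map_one]
  have e1 : (π g * S * π g⁻¹) * (π g * T * π g⁻¹) = π g * (S * T) * π g⁻¹ := by
    calc _ = π g * S * (π g⁻¹ * π g) * T * π g⁻¹ := by simp only [mul_assoc]
      _ = _ := by rw [e, mul_one]; simp only [mul_assoc]
  have e2 : (π g * T * π g⁻¹) * (π g * S * π g⁻¹) = π g * (T * S) * π g⁻¹ := by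
    calc _ = π g * T * (π g⁻¹ * π g) * S * π g⁻¹ := by simp only [mul_assoc]
      _ = _ := by rw [e, mul_one]; simp only [mul_assoc]
  rw [e1, e2, h]

theorem conj_conj {G : Type} [Group G] {π : G →* (K →L[ℂ] K)} (g h : G) (S : K →L[ℂ] K) :
    π g * (π h * S * π h⁻¹) * π g⁻¹ = π (g * h) * S * π (g * h)⁻¹ := by
  rw [mul_inv_rev, map_mul, map_mul]
  simp only [mul_assoc]

theorem conj_inv {G : Type} [Group G] {π : G →* (K →L[ℂ] K)} (g : G) (S : K →L[ℂ] K) :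
    π g * (π g⁻¹ * S * π g) * π g⁻¹ = S := by
  have e : π g * π g⁻¹ = 1 := by rw [← map_mul, mul_inv_cancel, map_one]
  calc _ = (π g * π g⁻¹) * S * (π g * π g⁻¹) := by simp only [mul_assoc]
    _ = S := by rw [e, one_mul, mul_one]

/-- Families of lines commute as soon as the families at the common points do. -/
theorem lines_comm (hG : GeoStmt) (hP : PlaneStmt) {W W' : Set (K →L[ℂ] K)}
    {lam lam' : Γ →* (K →L[ℂ] K)} {q q' : Γ →* GG k 2}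
    {Q Q' : Set (YY k 2 × PG k 2) → (K →L[ℂ] K)} {F F' : Clopens (LL k) → (K →L[ℂ] K)}
    (hF : LFam π lam W q (y0 : YY k 2) inc l0 Q F)
    (hF' : LFam π lam' W' q' (y0 : YY k 2) inc l0 Q' F')
    (hQ : ∀ C C', CO C → CO C' → Q C * Q' C' = Q' C' * Q C) (g : GG k 2) (C C' : Clopens (LL k)) :
    F C * (π g * F' C' * π g⁻¹) = π g * F' C' * π g⁻¹ * F C := by
  obtain ⟨y, hy1, hy2⟩ := (hP k).2 (l0 : LL k) (g • l0)
  obtain ⟨h, rfl⟩ := (hG k 2 (by norm_num)).surj y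
  have hy3 : ((g⁻¹ * h) • (y0 : YY k 2), (l0 : LL k)) ∈ inc := by
    have := (hP k).1 g⁻¹ _ _ hy2
    rwa [inv_smul_smul, ← mul_smul] at this
  refine (hF.gen h hy1 (π g * F' C' * π g⁻¹) (fun D hD => ?_) C).symm
  -- `F' C'` commutes with `π (g⁻¹h) Q D π (g⁻¹h)⁻¹`
  have h1 : π (g⁻¹ * h) * Q D * π (g⁻¹ * h)⁻¹ * F' C' =
      F' C' * (π (g⁻¹ * h) * Q D * π (g⁻¹ * h)⁻¹) :=
    hF'.gen (g⁻¹ * h) hy3 _ (fun D' hD' => conj_swap _ (hQ D D' hD hD')) C'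
  have h2 := conj_swap (π := π) g h1
  have h3 : π g * (π (g⁻¹ * h) * Q D * π (g⁻¹ * h)⁻¹) * π g⁻¹ = π h * Q D * π h⁻¹ := by
    rw [conj_conj, mul_inv_cancel_left]
  rw [h3] at h2
  exact h2.symm

theorem out_of_ana [CharZero k] (hG : GeoStmt) (hP : PlaneStmt) (hR : ResStmt 2) (hL : LineStmt)
    (hX : CrossStmt 2) (hp : Pic2 π lam₁ lam₂ X Ω) (ha : Ana 2 π lam₁ lam₂ X Ω q₁ q₂ E₁ E₂) :
    ∃ F₁ F₂ : Clopens (LL k) → (K →L[ℂ] K), Out π lam₁ lam₂ X q₁ q₂ F₁ F₂ := by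
  have e₁ : Ext π lam₁ (X ∪ Set.range lam₂) (X ∪ Set.range lam₂ ∪ Set.range E₂) (y0 : YY k 2) E₁ :=
    ext_of hp.leg₁ ha.lim₁ ha.lim₂ Set.subset_union_right ha.comm
  have e₂ : Ext π lam₂ (X ∪ Set.range lam₁) (X ∪ Set.range lam₁ ∪ Set.range E₁) (y0 : YY k 2) E₂ :=
    ext_of hp.leg₂ ha.lim₂ ha.lim₁ Set.subset_union_right fun C C' => (ha.comm C' C).symm
  obtain ⟨U₁, a₁, h₁⟩ := ha.hat₁
  obtain ⟨U₂, a₂, h₂⟩ := ha.hat₂
  obtain ⟨δ₁, Q₁, z₁⟩ := hR k π lam₁ _ _ Ω q₁ E₁ U₁ a₁ ha.emb₁ hp.leg₁ ha.lim₁ e₁ h₁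
  obtain ⟨δ₂, Q₂, z₂⟩ := hR k π lam₂ _ _ Ω q₂ E₂ U₂ a₂ ha.emb₂ hp.leg₂ ha.lim₂ e₂ h₂
  obtain ⟨F₁, f₁⟩ := hL k π lam₁ _ _ Ω q₁ E₁ δ₁ Q₁ ha.emb₁ hp.leg₁ ha.lim₁ e₁ z₁
  obtain ⟨F₂, f₂⟩ := hL k π lam₂ _ _ Ω q₂ E₂ δ₂ Q₂ ha.emb₂ hp.leg₂ ha.lim₂ e₂ z₂
  have c₁ : ∀ C C', CO C → CO C' → Q₁ C * Q₁ C' = Q₁ C' * Q₁ C := fun C C' h h' => by
    rw [z₁.mul C C' h h', z₁.mul C' C h' h, Set.inter_comm]
  have c₂ : ∀ C C', CO C → CO C' → Q₂ C * Q₂ C' = Q₂ C' * Q₂ C := fun C C' h h' => by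
    rw [z₂.mul C C' h h', z₂.mul C' C h' h, Set.inter_comm]
  have c₁₂ := hX k π lam₁ lam₂ X Ω q₁ q₂ E₁ E₂ δ₁ δ₂ Q₁ Q₂ ha.emb₁ ha.emb₂ hp ha.lim₁ ha.lim₂
    ha.comm z₁ z₂
  exact ⟨F₁, F₂, ha.emb₁, ha.emb₂, f₁.cpv, f₂.cpv, f₁.cm, f₂.cm, f₁.cov, f₂.cov, f₁.par, f₂.par,
    lines_comm hG hP f₁ f₁ c₁, lines_comm hG hP f₂ f₂ c₂, lines_comm hG hP f₁ f₂ c₁₂⟩

end mid

end Vale.Agent.P092.RC
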