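import Vale.Agent.P092.SR.St

/-!
P092, Team C (helper701): literal forms of the final statements for lattices in one simple factor
`SL_n(k)`, `k` a non-archimedean local field of characteristic zero, `n ≥ 3`.  Only definitions.
-/

open Vale.Agent.P092.H160.St Vale.Agent.P092.H103.St Vale.Agent.P092.H515.St
open Vale.Agent.P092.SR.St

namespace Vale.Agent.P092.RC.St

/-- `Γ` is an ICC lattice in `SL_n(k)`, where `n ≥ 3` and `k` is a non-archimedean local field of
characteristic zero (a finite extension of a field of `p`-adic numbers). -/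
def PadicSimpleLattice (Γ : Type) [Group Γ] : Prop :=
  ICC Γ ∧ ∃ (k : Type) (_ : NontriviallyNormedField k) (n : ℕ)
    (i : Γ →* Matrix.SpecialLinearGroup (Fin n) k),
    ProperSpace k ∧ IsUltrametricDist k ∧ CharZero k ∧ 3 ≤ n ∧ Function.Injective i ∧
    IsLattice i.range

/-- The same for `n = 3`. -/
def PadicSimpleLattice3 (Γ : Type) [Group Γ] : Prop :=
  ICC Γ ∧ ∃ (k : Type) (_ : NontriviallyNormedField k)
    (i : Γ →* Matrix.SpecialLinearGroup (Fin 3) k),
    ProperSpace k ∧ IsUltrametricDist k ∧ CharZero k ∧ Function.Injective i ∧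
    IsLattice i.range

/-- Version R1 (both groups are lattices), `t = 1`, `n = 3`. -/
def FinalR1 : Prop :=
  ∀ (Γ Λ : Type) [Group Γ] [Group Λ], PadicSimpleLattice3 Γ → PadicSimpleLattice3 Λ →
    ∀ θ : StarIso Γ Λ, Canonical θ

/-- Version R2 (`Λ` is any countable ICC group), `t = 1`, `n = 3`. -/
def Final13 : Prop := ∀ (Γ : Type) [Group Γ], PadicSimpleLattice3 Γ → Super Γ

/-- Version R2 (`Λ` is any countable ICC group), `t = 1`. -/
def Final1 : Prop := ∀ (Γ : Type) [Group Γ], PadicSimpleLattice Γ → Super Γ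

/-- Version R2 for all `t`. -/
def FinalAll : Prop := ∀ (Γ : Type) [Group Γ], PadicSimpleLattice Γ → SuperAll Γ

end Vale.Agent.P092.RC.St
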